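import Vale.Agent.P011N.Cl.T.D4L

/-!
Tools: descent of a datum to a smaller field.
-/

namespace Vale.Agent.P011N.Cl

open Vale.Agent.P011.MPQ Vale.Agent.P011.D4 Vale.Agent.P011.D4.Oct Equiv Module

section gen

variable {F F' V V' : Type} [Field F] [CharZero F] [Field F'] [CharZero F'] [AddCommGroup V]
  [Module F V] [AddCommGroup V'] [Module F' V'] {ι : F →+* F'} {j : V → V'} {Γ : Subgroup (Gl F)}
  {Γ' : Subgroup (Gl F')}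

theorem BC.semi_down (h : BC ι j) {γ : Gl F} {γ' : Gl F'} {φ : V → V} {φ' : V' → V'}
    (h1 : Semi γ' φ') (hγ : ∀ x, γ' (ι x) = ι (γ x)) (hj : ∀ x, φ' (j x) = j (φ x)) :
    Semi γ φ := fun t x y => h.inj (by
  rw [← hj, h.add, h.smul, h1, hγ, hj, hj, h.add, h.smul])

/-- **Descent**: the elements of `Φ'` which preserve the form `V` of `V'`. -/
theorem exists_descend [Nontrivial V] {Φ' Z' : Subgroup (Perm V')} (hE : Ext ι Γ Γ') (h : BC ι j)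
    (hΦ : Over Γ' Φ')
    (hZ : ∀ φ ∈ Φ', ∀ φ' ∈ Φ', ∀ γ' : Gl F', Semi γ' φ → Semi γ' φ' → ∃ z ∈ Z', φ' = z * φ)
    (hd : ∀ γ' ∈ Γ', ∃ φ' ∈ Φ', Semi γ' φ' ∧ ∃ φ : Perm V, ∀ x, φ' (j x) = j (φ x))
    (hf : ∀ γ' ∈ Γ', (∀ x, γ' (ι x) = ι x) → ∃ φ' ∈ Φ', Semi γ' φ' ∧ ∀ x, φ' (j x) = j x) :
    ∃ Φ : Subgroup (Perm V), Over Γ Φ ∧ Lifts ι j Γ' Φ Z' Φ' ∧
      ∀ φ, φ ∈ Φ ↔ ∃ φ' ∈ Φ', ∀ x, φ' (j x) = j (φ x) := by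
  let Φ : Subgroup (Perm V) :=
    { carrier := {φ | ∃ φ' ∈ Φ', ∀ x, φ' (j x) = j (φ x)}
      mul_mem' := by
        rintro φ ψ ⟨φ', h1, h2⟩ ⟨ψ', k1, k2⟩
        exact ⟨_, Φ'.mul_mem h1 k1, fun x => by rw [Perm.mul_apply, k2, h2, Perm.mul_apply]⟩
      one_mem' := ⟨1, Φ'.one_mem, fun _ => rfl⟩
      inv_mem' := by
        rintro φ ⟨φ', h1, h2⟩
        exact ⟨_, Φ'.inv_mem h1, fun x => by
          rw [Perm.inv_eq_iff_eq, h2]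
          exact congrArg j (φ.apply_symm_apply x).symm⟩ }
  refine ⟨Φ, ⟨?_, fun γ hγ => ?_⟩, ⟨fun φ' hφ' => ?_, ?_⟩, fun _ => Iff.rfl⟩
  · rintro φ ⟨φ', h1, h2⟩
    obtain ⟨γ', h3, h4⟩ := hΦ.semi φ' h1
    obtain ⟨γ, h5, h6⟩ := hE.down γ' h3
    exact ⟨γ, h5, h.semi_down h4 h6 h2⟩
  · obtain ⟨γ', h1, h2⟩ := hE.up γ hγ
    obtain ⟨φ', h3, h4, φ, h5⟩ := hd γ' h1
    exact ⟨φ, ⟨φ', h3, h5⟩, h.semi_down h4 h2 h5⟩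
  · obtain ⟨γ', h1, h2⟩ := hΦ.semi φ' hφ'
    obtain ⟨ψ', h3, h4, φ, h5⟩ := hd γ' h1
    obtain ⟨z, h6, rfl⟩ := hZ ψ' h3 φ' hφ' γ' h4 h2
    exact ⟨⟨γ', h1, h2⟩, φ, ⟨ψ', h3, h5⟩, z, h6, fun x => by rw [Perm.mul_apply, h5]⟩
  · rintro φ ⟨φ', h1, h2⟩ γ h3 γ' h4 h5
    obtain ⟨δ', h6, h7⟩ := hΦ.semi φ' h1
    obtain ⟨χ, k1, k2, k3⟩ := hf _ (Γ'.mul_mem (Γ'.inv_mem h6) h4) fun x => by
      rw [AlgEquiv.mul_apply, h5, ← h.over h h3 h7 h2]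
      exact δ'.symm_apply_apply _
    refine ⟨φ' * χ, Φ'.mul_mem h1 k1, ?_, 1, Z'.one_mem, fun x => by rw [Perm.mul_apply, k3, h2]; rfl⟩
    have k4 := h7.mul k2
    rwa [mul_inv_cancel_left] at k4

end gen

variable {F F' : Type} [Field F] [CharZero F] [Field F'] [CharZero F'] {A B C : Fˣ}
  {A' B' C' : F'ˣ} {ι : F →+* F'} {Γ : Subgroup (Gl F)} {Γ' : Subgroup (Gl F')}
  {Φ' : Subgroup (Perm (V4 A' B' C'))}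

theorem Dat4.descend (h : Dat4 Γ' Φ') (hE : Ext ι Γ Γ') (hP : Par ι A B C A' B' C')
    (hd : ∀ γ' ∈ Γ', ∃ φ' ∈ Φ', Semi γ' φ' ∧ ∃ φ : Perm (V4 A B C),
      ∀ x, φ' (j4 ι x) = j4 ι (φ x))
    (hf : ∀ γ' ∈ Γ', (∀ x, γ' (ι x) = ι x) →
      ∃ φ' ∈ Φ', Semi γ' φ' ∧ ∀ x : V4 A B C, φ' (j4 ι x) = j4 ι x) :
    ∃ Φ : Subgroup (Perm (V4 A B C)), Dat4 Γ Φ ∧ Lifts ι (j4 ι) Γ' Φ (Z4 A' B' C') Φ' ∧
      ∀ φ, φ ∈ Φ ↔ ∃ φ' ∈ Φ', ∀ x, φ' (j4 ι x) = j4 ι (φ x) := by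
  obtain ⟨Φ, h1, h2, h3⟩ := exists_descend hE (bc_j4 ι) h.ov
    (fun φ k1 φ' k2 γ' k3 k4 => h.exists_Z4 k1 k2 k3 k4) hd hf
  have h4 : (j4 ι (1 : V4 A B C) : V4 A' B' C') = 1 := funext fun _ => jO_one ι
  refine ⟨Φ, ⟨h1, fun φ hφ => ?_, fun φ hφ k0 => ?_, fun z hz => ?_⟩, h2, h3⟩
  · obtain ⟨γ, k1, k2⟩ := h1.semi φ hφ
    obtain ⟨φ', k3, k4⟩ := (h3 φ).1 hφ
    obtain ⟨γ', -, π, μ, ν, s1⟩ := h.sim φ' k3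
    refine ⟨γ, k1, π, fun i => norm (φ 1 (π i)), tau (φ 1) / 2, (s1.cast rfl rfl (fun i => ?_)
      ?_).down hP hP k2 ((bc_j4 ι).over (bc_j4 ι) k2 s1.semi k4) k4⟩
    · have k5 : norm (φ' 1 (π i)) = μ i * γ' (norm (1 : Oct A' B' C')) := s1.nrm 1 i
      rw [Oct.norm_one, map_one γ', mul_one, ← h4, k4, j4, norm_jO hP] at k5
      exact k5.symm
    · have k5 := s1.tri 1
      rw [show tau (1 : V4 A' B' C') = 2 from tau_one, map_ofNat, ← h4, k4, tau_j4 hP] at k5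
      rw [map_div₀, k5, map_ofNat, mul_div_cancel_right₀ _ two_ne_zero]
  · obtain ⟨φ', k3, k4⟩ := (h3 φ).1 hφ
    obtain ⟨γ', k1, k2⟩ := h.ov.semi φ' k3
    obtain ⟨χ, k5, k6, k7⟩ := hf γ' k1 ((bc_j4 ι).over (bc_j4 ι) (semi_one.2 k0) k2 k4)
    obtain ⟨z, hz, rfl⟩ := h.exists_Z4 k5 k3 k6 k2
    obtain ⟨l, hl⟩ := mem_Z4.1 hz
    have k8 : ∀ x i, (jO ι (φ x i) : Oct A' B' C') = l i • jO ι (x i) := fun x i => by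
      have k9 := congrFun (k4 x) i
      rw [Perm.mul_apply, k7, hl] at k9
      exact k9.symm
    refine mem_Z4.2 ⟨fun i => (φ 1 i).fst.re, fun x i => (bc_jO ι (A' := A') (B' := B')
      (C' := C')).inj ?_⟩
    have k9 : ι (φ 1 i).fst.re = l i * ι 1 := congrArg (fun u => u.fst.re) (k8 1 i)
    rw [k8, jO_smul, k9, map_one, mul_one]
  · obtain ⟨l, hl⟩ := mem_Z4.1 hz
    exact (h3 z).2 ⟨_, h.sat (zs_mem (fun i => ι (l i)) fun i =>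
      (map_ne_zero ι).2 (ne_of_scal hl i)), fun x => funext fun i => by
        rw [zs_apply, j4, j4, hl, jO_smul]⟩

end Vale.Agent.P011N.Cl
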