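import Vale.Agent.P011N.Cl.T.Semi

/-!
Tools: polynomial functions on a vector space.
-/

namespace Vale.Agent.P011N.Cl

open Module

variable {F U V W W' : Type} [Field F] [AddCommGroup U] [Module F U] [AddCommGroup V] [Module F V]
  [AddCommGroup W] [Module F W] [AddCommGroup W'] [Module F W']

variable (F U) in
/-- The polynomial functions. -/
def PF : Subalgebra F (U → F) := Algebra.adjoin F (Set.range fun l : U →ₗ[F] F => (l : U → F))

theorem PF.lin (l : U →ₗ[F] F) : ⇑l ∈ PF F U := Algebra.subset_adjoin ⟨l, rfl⟩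

theorem PF.const (c : F) : (fun _ => c) ∈ PF F U := (PF F U).algebraMap_mem c

theorem PF.add {f g : U → F} (hf : f ∈ PF F U) (hg : g ∈ PF F U) :
    (fun x => f x + g x) ∈ PF F U := (PF F U).add_mem hf hg

theorem PF.sub {f g : U → F} (hf : f ∈ PF F U) (hg : g ∈ PF F U) :
    (fun x => f x - g x) ∈ PF F U := (PF F U).sub_mem hf hg

theorem PF.mul {f g : U → F} (hf : f ∈ PF F U) (hg : g ∈ PF F U) :
    (fun x => f x * g x) ∈ PF F U := (PF F U).mul_mem hf hg

theorem PF.induction {p : (U → F) → Prop} (h1 : ∀ l : U →ₗ[F] F, p l) (h2 : ∀ c : F, p fun _ => c)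
    (h3 : ∀ f g, p f → p g → p fun x => f x + g x) (h4 : ∀ f g, p f → p g → p fun x => f x * g x)
    {f : U → F} (hf : f ∈ PF F U) : p f := by
  induction hf using Algebra.adjoin_induction with
  | mem x hx =>
    obtain ⟨l, rfl⟩ := hx
    exact h1 l
  | algebraMap c => exact h2 c
  | add x y _ _ hx hy => exact h3 x y hx hy
  | mul x y _ _ hx hy => exact h4 x y hx hy

variable (F) in
/-- The polynomial maps. -/
def PM (g : U → W) : Prop := ∀ l : W →ₗ[F] F, (fun x => l (g x)) ∈ PF F U

theorem PF.comp {f : W → F} (hf : f ∈ PF F W) {g : U → W} (hg : PM F g) :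
    (fun x => f (g x)) ∈ PF F U :=
  PF.induction (p := fun f => (fun x => f (g x)) ∈ PF F U) hg PF.const (fun _ _ => PF.add)
    (fun _ _ => PF.mul) hf

theorem PM.comp {f : V → W} (hf : PM F f) {g : U → V} (hg : PM F g) : PM F fun x => f (g x) :=
  fun l => PF.comp (hf l) hg

theorem PM.lin (g : U →ₗ[F] W) : PM F g := fun l => PF.lin (l ∘ₗ g)

theorem PM.id : PM F fun x : U => x := PF.lin

theorem PM.const (w : W) : PM F fun _ : U => w := fun _ => PF.const _

theorem PM.map {g : U → V} (hg : PM F g) (L : V →ₗ[F] W) : PM F fun x => L (g x) :=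
  fun l => hg (l ∘ₗ L)

theorem PM.pf {f : U → F} (hf : PM F f) : f ∈ PF F U := hf LinearMap.id

theorem PM.add {f g : U → W} (hf : PM F f) (hg : PM F g) : PM F fun x => f x + g x := fun l => by
  simp only [map_add]
  exact PF.add (hf l) (hg l)

theorem PM.sub {f g : U → W} (hf : PM F f) (hg : PM F g) : PM F fun x => f x - g x := fun l => by
  simp only [map_sub]
  exact PF.sub (hf l) (hg l)

theorem PM.smul {f : U → F} (hf : f ∈ PF F U) {g : U → W} (hg : PM F g) :
    PM F fun x => f x • g x := fun l => by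
  simp only [map_smul, smul_eq_mul]
  exact PF.mul hf (hg l)

theorem PF.pm {f : U → F} (hf : f ∈ PF F U) : PM F f := by
  have h := PM.smul hf (PM.const (1 : F))
  simpa using h

theorem PM.sum {ι : Type} (s : Finset ι) {f : ι → U → W} (hf : ∀ i ∈ s, PM F (f i)) :
    PM F fun x => ∑ i ∈ s, f i x := by
  classical
  induction s using Finset.induction_on with
  | empty => simpa using PM.const (0 : W)
  | insert i s hi ih =>
    simp only [Finset.sum_insert hi]
    exact (hf i (Finset.mem_insert_self i s)).add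
      (ih fun j hj => hf j (Finset.mem_insert_of_mem hj))

theorem PM.bilin [FiniteDimensional F V] (B : V →ₗ[F] W →ₗ[F] W') {f : U → V} {g : U → W}
    (hf : PM F f) (hg : PM F g) : PM F fun x => B (f x) (g x) := by
  let b := Module.finBasis F V
  have h : (fun x => B (f x) (g x)) = fun x => ∑ i, b.coord i (f x) • B (b i) (g x) := by
    funext x
    conv_lhs => rw [← b.sum_repr (f x), map_sum, LinearMap.sum_apply]
    simp
  rw [h]
  exact PM.sum _ fun i _ => PM.smul (hf _) (hg.map _)

theorem PM.pi {ι : Type} [Fintype ι] [DecidableEq ι] {f : U → ι → W}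
    (hf : ∀ i, PM F fun x => f x i) : PM F f := by
  have h : f = fun x => ∑ i, LinearMap.single F (fun _ : ι => W) i (f x i) := by
    funext x
    exact (Finset.univ_sum_single (f x)).symm
  rw [h]
  exact PM.sum _ fun i _ => (hf i).map _

theorem PM.prod {f : U → W} {g : U → W'} (hf : PM F f) (hg : PM F g) :
    PM F fun x => (f x, g x) := by
  have h := (hf.map (LinearMap.inl F W W')).add (hg.map (LinearMap.inr F W W'))
  simpa using h

theorem PF.poly {ι : Type} [Fintype ι] (v : ι → U) {f : U → F} (hf : f ∈ PF F U) :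
    ∃ p : MvPolynomial ι F, ∀ t : ι → F, f (∑ i, t i • v i) = MvPolynomial.eval t p := by
  refine PF.induction (p := fun f => ∃ p : MvPolynomial ι F,
    ∀ t : ι → F, f (∑ i, t i • v i) = MvPolynomial.eval t p) (fun l => ?_) (fun c => ?_) ?_ ?_ hf
  · exact ⟨∑ i, MvPolynomial.X i * MvPolynomial.C (l (v i)), fun t => by simp⟩
  · exact ⟨MvPolynomial.C c, fun t => by simp⟩
  · rintro f g ⟨p, hp⟩ ⟨q, hq⟩
    exact ⟨p + q, fun t => by rw [map_add, ← hp, ← hq]⟩
  · rintro f g ⟨p, hp⟩ ⟨q, hq⟩
    exact ⟨p * q, fun t => by rw [map_mul, ← hp, ← hq]⟩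

variable [CharZero F]

theorem PF.semi {γ : Gl F} {f : W → F} (hf : f ∈ PF F W) {φ : U → W} (hφ : Semi γ φ) :
    (fun x => γ.symm (f (φ x))) ∈ PF F U := by
  refine PF.induction (p := fun f => (fun x => γ.symm (f (φ x))) ∈ PF F U) (fun l => ?_)
    (fun c => PF.const _) (fun f g h1 h2 => ?_) (fun f g h1 h2 => ?_) hf
  · exact PF.lin
      { toFun := fun x => γ.symm (l (φ x))
        map_add' := fun x y => by rw [hφ.add, map_add, map_add]
        map_smul' := fun t x => by
          rw [hφ.smul, map_smul, smul_eq_mul, map_mul, γ.symm_apply_apply]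
          rfl }
  · simp only [map_add]
    exact PF.add h1 h2
  · simp only [map_mul]
    exact PF.mul h1 h2

variable [FiniteDimensional F U]

/-- **Density**: nonzero polynomial functions have a common point of nonvanishing in every additive
monoid which spans the space. -/
theorem exists_ne_all (P : AddSubmonoid U) (hP : Submodule.span F (P : Set U) = ⊤) {ι : Type}
    (s : Finset ι) {f : ι → U → F} (hf : ∀ i ∈ s, f i ∈ PF F U) (h0 : ∀ i ∈ s, ∃ x, f i x ≠ 0) :
    ∃ x ∈ P, ∀ i ∈ s, f i x ≠ 0 := by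
  classical
  obtain ⟨t, ht, ht', hli⟩ := exists_linearIndependent F (P : Set U)
  have : Fintype t := (LinearIndependent.setFinite hli).fintype
  choose p hp using fun i : s => PF.poly (fun j : t => j.1) (hf i.1 i.2)
  have h1 : ∀ i, p i ≠ 0 := by
    intro i hi
    obtain ⟨x, hx⟩ := h0 i.1 i.2
    have h2 : x ∈ Submodule.span F (Set.range fun j : t => j.1) := by
      rw [Subtype.range_coe, ht', hP]
      trivial
    obtain ⟨c, rfl⟩ := (Submodule.mem_span_range_iff_exists_fun F).1 h2
    exact hx (by rw [hp, hi, map_zero])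
  have h2 : ∏ i, p i ≠ 0 := Finset.prod_ne_zero_iff.2 fun i _ => h1 i
  by_contra hcon
  push Not at hcon
  refine h2 (MvPolynomial.funext_set (fun _ => Set.range (Nat.cast : ℕ → F))
    (fun _ => Set.infinite_range_of_injective Nat.cast_injective) fun c hc => ?_)
  choose n hn using fun j => hc j (Set.mem_univ j)
  obtain ⟨i, hi, hx⟩ := hcon (∑ j : t, c j • j.1) (P.sum_mem fun j _ => by
    rw [← hn, Nat.cast_smul_eq_nsmul]
    exact P.nsmul_mem (ht j.2) _)
  rw [map_prod, map_zero]
  exact Finset.prod_eq_zero (Finset.mem_univ ⟨i, hi⟩) (by rw [← hp, hx])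

theorem exists_ne_pf (P : AddSubmonoid U) (hP : Submodule.span F (P : Set U) = ⊤) {f : U → F}
    (hf : f ∈ PF F U) (h0 : ∃ x, f x ≠ 0) : ∃ x ∈ P, f x ≠ 0 := by
  obtain ⟨x, h1, h2⟩ := exists_ne_all P hP {()} (f := fun _ => f) (fun _ _ => hf) fun _ _ => h0
  exact ⟨x, h1, h2 () (Finset.mem_singleton_self _)⟩

theorem PF.ext (P : AddSubmonoid U) (hP : Submodule.span F (P : Set U) = ⊤) {f g : U → F}
    (hf : f ∈ PF F U) (hg : g ∈ PF F U) (h : ∀ x ∈ P, f x = g x) (x : U) : f x = g x := by
  by_contra h1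
  obtain ⟨y, h2, h3⟩ := exists_ne_pf P hP (PF.sub hf hg) ⟨x, sub_ne_zero.2 h1⟩
  exact h3 (sub_eq_zero.2 (h y h2))

theorem PM.ext (P : AddSubmonoid U) (hP : Submodule.span F (P : Set U) = ⊤) {f g : U → W}
    (hf : PM F f) (hg : PM F g) (h : ∀ x ∈ P, f x = g x) (x : U) : f x = g x :=
  sub_eq_zero.1 ((Module.forall_dual_apply_eq_zero_iff F _).1 fun l => by
    rw [map_sub, PF.ext P hP (hf l) (hg l) (fun y hy => by rw [h y hy]) x, sub_self])

end Vale.Agent.P011N.Cl
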