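import Vale.Agent.P011N.Cl.T.D4L
import Vale.Agent.P011.D4.R1
import Vale.Agent.P011.Arith.Schilling

/-!
Tools: semilinear actions, frames of octonion algebras, and split octonion algebras.
-/

namespace Vale.Agent.P011N.Cl

open Vale.Agent.P011.MPQ Vale.Agent.P011.D4 Vale.Agent.P011.D4.Oct Equiv Module

section act

variable {F V : Type} [Field F] [NumberField F] [AddCommGroup V] [Module F V]
  {Γ Γ' : Subgroup (Gl F)} {a : Gl F → V → V}

/-- A semilinear action. -/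
structure Act (Γ : Subgroup (Gl F)) (a : Gl F → V → V) : Prop where
  semi : ∀ γ ∈ Γ, Semi γ (a γ)
  mul : ∀ γ ∈ Γ, ∀ δ ∈ Γ, ∀ x, a (γ * δ) x = a γ (a δ x)
  one : ∀ x, a 1 x = x

/-- The fixed vectors. -/
def Fix (Γ : Subgroup (Gl F)) (a : Gl F → V → V) (x : V) : Prop := ∀ γ ∈ Γ, a γ x = x

theorem Act.mono (h : Act Γ a) (hle : Γ' ≤ Γ) : Act Γ' a :=
  ⟨fun γ hγ => h.semi γ (hle hγ), fun γ hγ δ hδ => h.mul γ (hle hγ) δ (hle hδ), h.one⟩

theorem Act.inv (h : Act Γ a) {γ : Gl F} (hγ : γ ∈ Γ) (x : V) : a γ (a γ⁻¹ x) = x := by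
  rw [← h.mul γ hγ _ (Γ.inv_mem hγ), mul_inv_cancel, h.one]

theorem Act.add (h : Act Γ a) {x y : V} (hx : Fix Γ a x) (hy : Fix Γ a y) : Fix Γ a (x + y) :=
  fun γ hγ => by rw [(h.semi γ hγ).add, hx γ hγ, hy γ hγ]

theorem Act.smul (h : Act Γ a) {t : F} {x : V} (ht : Fx Γ t) (hx : Fix Γ a x) :
    Fix Γ a (t • x) := fun γ hγ => by rw [(h.semi γ hγ).smul, ht γ hγ, hx γ hγ]

theorem Act.span (h : Act Γ a) : Submodule.span F {x | Fix Γ a x} = ⊤ :=
  span_fixed a h.semi h.mul h.one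

/-- **Galois descent** for a stable subspace. -/
theorem Act.span_sub (h : Act Γ a) (U : Submodule F V) (hU : ∀ γ ∈ Γ, ∀ x ∈ U, a γ x ∈ U) :
    U ≤ Submodule.span F {x | x ∈ U ∧ Fix Γ a x} := by
  classical
  let b : Gl F → U → U := fun γ x => if hγ : γ ∈ Γ then ⟨a γ x, hU γ hγ x x.2⟩ else x
  have hb : ∀ γ ∈ Γ, ∀ x, (b γ x : V) = a γ x := fun γ hγ x => by simp only [b, dif_pos hγ]
  have h1 := span_fixed (Γ := Γ) b
    (fun γ hγ t x y => Subtype.ext (by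
      rw [hb γ hγ, Submodule.coe_add, Submodule.coe_add, Submodule.coe_smul, Submodule.coe_smul,
        hb γ hγ, hb γ hγ]
      exact h.semi γ hγ _ _ _))
    (fun γ hγ δ hδ x => Subtype.ext (by
      rw [hb _ (Γ.mul_mem hγ hδ), hb γ hγ, hb δ hδ, h.mul γ hγ δ hδ]))
    (fun x => Subtype.ext (by rw [hb _ Γ.one_mem, h.one]))
  intro x hx
  have h2 := Submodule.mem_map_of_mem (f := U.subtype) (h1.ge (Submodule.mem_top (x := ⟨x, hx⟩)))
  rw [Submodule.map_span] at h2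
  refine Submodule.span_mono ?_ h2
  rintro _ ⟨y, hy, rfl⟩
  exact ⟨y.2, fun γ hγ => (hb γ hγ y).symm.trans (congrArg Subtype.val (hy γ hγ))⟩

theorem Act.exists_ne (h : Act Γ a) (U : Submodule F V) (hU : ∀ γ ∈ Γ, ∀ x ∈ U, a γ x ∈ U)
    (h0 : U ≠ ⊥) : ∃ x ∈ U, x ≠ 0 ∧ Fix Γ a x := by
  by_contra hcon
  push Not at hcon
  refine h0 (le_bot_iff.1 ((h.span_sub U hU).trans (Submodule.span_le.2 fun x hx => ?_)))
  by_contra h1
  exact hcon x hx.1 h1 hx.2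

theorem Act.exists_basis [FiniteDimensional F V] (h : Act Γ a) :
    ∃ (n : ℕ) (b : Basis (Fin n) F V), ∀ i, Fix Γ a (b i) := by
  obtain ⟨s, h1, h2, h3⟩ := exists_linearIndependent F {x | Fix Γ a x}
  rw [h.span] at h2
  let b := Basis.mk h3 (by rw [Subtype.range_coe_subtype]; exact h2.ge)
  haveI := FiniteDimensional.fintypeBasisIndex b
  refine ⟨Fintype.card s, b.reindex (Fintype.equivFin s), fun i => ?_⟩
  rw [Basis.reindex_apply, Basis.mk_apply]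
  exact h1 (Subtype.coe_prop _)

theorem Act.repr (h : Act Γ a) {κ : Type} [Fintype κ] (b : Basis κ F V) (hb : ∀ i, Fix Γ a (b i))
    {γ : Gl F} (hγ : γ ∈ Γ) (x : V) (i : κ) : b.repr (a γ x) i = γ (b.repr x i) := by
  conv_lhs => rw [← b.sum_repr x, (h.semi γ hγ).sum]
  simp only [(h.semi γ hγ).smul, hb _ γ hγ]
  exact congrFun (b.repr_sum_self _) i

theorem Act.fx_repr (h : Act Γ a) {κ : Type} [Fintype κ] (b : Basis κ F V)
    (hb : ∀ i, Fix Γ a (b i)) {x : V} (hx : Fix Γ a x) (i : κ) : Fx Γ (b.repr x i) :=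
  fun γ hγ => by rw [← h.repr b hb hγ, hx γ hγ]

end act

section oact

variable {F : Type} [Field F] [NumberField F] {A B C : Fˣ} {Γ Γ' : Subgroup (Gl F)}
  {a : Gl F → Oct A B C → Oct A B C} {γ : Gl F}

/-- An action by semilinear automorphisms of the octonions. -/
structure OAct (Γ : Subgroup (Gl F)) (a : Gl F → Oct A B C → Oct A B C) : Prop
    extends Act Γ a where
  omul : ∀ γ ∈ Γ, ∀ x y, a γ (x * y) = a γ x * a γ y
  nrm : ∀ γ ∈ Γ, ∀ x, norm (a γ x) = γ (norm x)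

theorem OAct.mono (h : OAct Γ a) (hle : Γ' ≤ Γ) : OAct Γ' a :=
  ⟨h.toAct.mono hle, fun γ hγ => h.omul γ (hle hγ), fun γ hγ => h.nrm γ (hle hγ)⟩

theorem oact_jO (hA : Fx Γ (A : F)) (hB : Fx Γ (B : F)) (hC : Fx Γ (C : F)) :
    OAct Γ fun γ => (jO γ : Oct A B C → Oct A B C) where
  semi γ _ t x y := by rw [jO_add, jO_smul]
  mul _ _ _ _ _ := rfl
  one _ := rfl
  omul _ hγ := jO_mul (par_of_fx hA hB hC hγ)
  nrm _ hγ := norm_jO (par_of_fx hA hB hC hγ)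

theorem OAct.fix_one (h : OAct Γ a) : Fix Γ a 1 := fun γ hγ => by
  have h1 := h.omul γ hγ 1 (a γ⁻¹ 1)
  rw [one_mul, h.inv hγ, mul_one] at h1
  exact h1.symm

theorem OAct.obil (h : OAct Γ a) (hγ : γ ∈ Γ) (x y : Oct A B C) :
    bil (a γ x) (a γ y) = γ (bil x y) := by
  rw [bil, bil, ← (h.semi γ hγ).add, h.nrm γ hγ, h.nrm γ hγ, h.nrm γ hγ, map_sub, map_sub]

theorem OAct.ostar (h : OAct Γ a) (hγ : γ ∈ Γ) (x : Oct A B C) :
    a γ (star x) = star (a γ x) := by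
  rw [star_eq, star_eq, (h.semi γ hγ).sub, (h.semi γ hγ).smul, ← h.obil hγ, h.fix_one γ hγ]

theorem OAct.fix_mul (h : OAct Γ a) {x y : Oct A B C} (hx : Fix Γ a x) (hy : Fix Γ a y) :
    Fix Γ a (x * y) := fun γ hγ => by rw [h.omul γ hγ, hx γ hγ, hy γ hγ]

theorem OAct.fx_norm (h : OAct Γ a) {x : Oct A B C} (hx : Fix Γ a x) : Fx Γ (norm x) :=
  fun γ hγ => by rw [← h.nrm γ hγ, hx γ hγ]

theorem bilL_nondeg : LinearMap.BilinForm.Nondegenerate (bilL A B C) :=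
  ⟨fun _ h => eq_zero_of_bil h, fun _ h => eq_zero_of_bil fun y => (bil_comm _ _).trans (h y)⟩

/-- A fixed pure vector of nonzero norm which is orthogonal to three fixed vectors. -/
theorem OAct.exists_perp (h : OAct Γ a) (v : Fin 3 → Oct A B C) (hv : ∀ m, Fix Γ a (v m)) :
    ∃ x, Fix Γ a x ∧ norm x ≠ 0 ∧ bil x 1 = 0 ∧ ∀ m, bil x (v m) = 0 := by
  let w : Option (Fin 3) → Oct A B C := fun m => m.elim 1 v
  have hw : ∀ m, Fix Γ a (w m) := fun m => by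
    cases m
    exacts [h.fix_one, hv _]
  let f : Oct A B C →ₗ[F] (Option (Fin 3) → F) := LinearMap.pi fun m => (bilL A B C).flip (w m)
  have hf : ∀ x, x ∈ LinearMap.ker f ↔ ∀ m, bil x (w m) = 0 := fun x => funext_iff
  by_contra hcon
  have h0 : ∀ x ∈ LinearMap.ker f, Fix Γ a x → norm x = 0 := fun x h1 h2 => by
    by_contra h3
    exact hcon ⟨x, h2, h3, (hf x).1 h1 none, fun m => (hf x).1 h1 (some m)⟩
  have h1 := h.span_sub (LinearMap.ker f) fun γ hγ x hx => (hf _).2 fun m => by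
    rw [← hw m γ hγ, h.obil hγ, (hf x).1 hx, map_zero]
  have h2 : LinearMap.ker f ≤ LinearMap.BilinForm.orthogonal (bilL A B C) (LinearMap.ker f) := by
    intro x hx y hy
    refine (Submodule.span_le (p := LinearMap.ker ((bilL A B C).flip x))).2 (fun y hy => ?_) (h1 hy)
    refine (Submodule.span_le (p := LinearMap.ker (bilL A B C y))).2 (fun x hx => ?_) (h1 hx)
    change bil y x = 0
    rw [bil, h0 _ (add_mem hy.1 hx.1) (h.add hy.2 hx.2), h0 _ hy.1 hy.2, h0 _ hx.1 hx.2, sub_zero,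
      sub_zero]
  have h3 := LinearMap.BilinForm.finrank_orthogonal (bilL_nondeg (A := A) (B := B) (C := C))
    (LinearMap.ker f)
  have h4 := f.finrank_range_add_finrank_ker
  have h5 := (LinearMap.range f).finrank_le
  rw [finrank_oct] at h3 h4
  rw [Module.finrank_fintype_fun_eq_card, Fintype.card_option, Fintype.card_fin] at h5
  have h6 := Submodule.eq_of_le_of_finrank_le h2 (by omega)
  have h7 : (1 : Oct A B C) ∈ LinearMap.ker f := by
    rw [h6]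
    exact fun y hy => (hf y).1 hy none
  have h8 := (hf 1).1 h7 none
  change bil (1 : Oct A B C) 1 = 0 at h8
  rw [bil_self, Oct.norm_one, mul_one] at h8
  exact two_ne_zero h8

theorem OAct.exists_third (h : OAct Γ a) {i j : Oct A B C} {α β : Fˣ} (hi : Fix Γ a i)
    (hj : Fix Γ a j) (hb : Basic i j α β) :
    ∃ (κ : Fˣ) (l : Oct A B C), Fx Γ (κ : F) ∧ Fix Γ a l ∧ Triple i j l α β κ := by
  obtain ⟨l, h1, h2, h3, h4⟩ := h.exists_perp ![i, j, i * j] fun m => by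
    fin_cases m
    exacts [hi, hj, h.fix_mul hi hj]
  exact ⟨Units.mk0 _ (neg_ne_zero.2 h2), l, (h.fx_norm h1).neg, h1, hb, ⟨h3, h4 0, h4 1, h4 2⟩,
    (neg_neg _).symm⟩

/-- A fixed pure vector is the first vector of a fixed frame. -/
theorem OAct.exists_trip (h : OAct Γ a) {i : Oct A B C} {α : Fˣ} (hi : Fix Γ a i)
    (h1 : bil i 1 = 0) (h2 : norm i = -α) :
    ∃ (β κ : Fˣ) (j l : Oct A B C), Fx Γ (β : F) ∧ Fx Γ (κ : F) ∧ Fix Γ a j ∧ Fix Γ a l ∧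
      Triple i j l α β κ := by
  obtain ⟨j, k1, k2, k3, k4⟩ := h.exists_perp (fun _ => i) fun _ => hi
  obtain ⟨κ, l, k5, k6, k7⟩ := h.exists_third (α := α) (β := Units.mk0 _ (neg_ne_zero.2 k2)) hi k1
    ⟨h1, k3, (bil_comm _ _).trans (k4 0), h2, (neg_neg _).symm⟩
  exact ⟨_, κ, j, l, (h.fx_norm k1).neg, k5, k1, k6, k7⟩

theorem OAct.exists_frame (h : OAct Γ a) :
    ∃ (α β κ : Fˣ) (i j l : Oct A B C), Fx Γ (α : F) ∧ Fx Γ (β : F) ∧ Fx Γ (κ : F) ∧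
      Fix Γ a i ∧ Fix Γ a j ∧ Fix Γ a l ∧ Triple i j l α β κ := by
  obtain ⟨i, k1, k2, k3, -⟩ := h.exists_perp (fun _ => 1) fun _ => h.fix_one
  obtain ⟨β, κ, j, l, k4⟩ := h.exists_trip (α := Units.mk0 _ (neg_ne_zero.2 k2)) k1 k3
    (neg_neg _).symm
  exact ⟨_, β, κ, i, j, l, (h.fx_norm k1).neg, k4.1, k4.2.1, k1, k4.2.2⟩

theorem OAct.map_emb (h : OAct Γ a) {i j l : Oct A B C} {α β κ : Fˣ} (hi : Fix Γ a i)
    (hj : Fix Γ a j) (hl : Fix Γ a l) (hγ : γ ∈ Γ) (x : Oct α β κ) :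
    a γ (Oct.emb i j l x) = Oct.emb i j l (jO γ x : Oct α β κ) := by
  have h1 := h.semi γ hγ
  simp only [Oct.emb, qemb, h1.add, h1.smul, h.omul γ hγ, h.fix_one γ hγ, hi γ hγ, hj γ hγ,
    hl γ hγ, jO, jQ]

/-- The isomorphism of a frame, on the three summands. -/
theorem exists_emb4 {i j l : Oct A B C} {α β κ : Fˣ} (h : Triple i j l α β κ) :
    ∃ ψ : V4 α β κ ≃ V4 A B C, Sim4 id 1 1 1 ψ ∧ ∀ x m, ψ x m = Oct.emb i j l (x m) := by
  obtain ⟨E, h1, h2, -, h4⟩ := exists_emb h.trip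
  refine ⟨Equiv.piCongrRight fun _ => E.toEquiv, ⟨fun t x y => funext fun m => ?_,
    fun x m => (h4 _).trans (one_mul _).symm, fun x => ?_, fun _ => one_ne_zero, one_ne_zero⟩,
    fun x m => h1 _⟩
  · exact semi_lin E.toLinearMap t (x m) (y m)
  · change bil (E (x 0) * E (x 1) * E (x 2)) 1 = _
    rw [← h2, ← h2, h1, ← emb_one (i := i) (j := j) (l := l) (α := α) (β := β) (γ := κ), h.bil_emb,
      one_mul]
    rfl

end oact

section real

variable {F : Type} [Field F] [NumberField F] {Γ : Subgroup (Gl F)}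

/-- The embedding is real on the field fixed by `Γ`. -/
def RlG (Γ : Subgroup (Gl F)) (w : F →+* ℂ) : Prop := ∀ x, Fx Γ x → (w x).im = 0

theorem exists_rlG {E : Type} [Field E] [NumberField E] {ι : E →+* F}
    (hr : ∀ x, Fx Γ x → x ∈ Set.range ι) (P : E →+* ℝ) :
    ∃ w : F →+* ℂ, RlG Γ w ∧ ∀ x, w (ι x) = P x := by
  letI := ι.toAlgebra
  letI := (Complex.ofRealHom.comp P).toAlgebra
  haveI : Algebra.IsAlgebraic E F := Algebra.IsAlgebraic.tower_top (K := ℚ) E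
  let w : F →ₐ[E] ℂ := IsAlgClosed.lift
  refine ⟨w, fun x hx => ?_, fun x => w.commutes x⟩
  obtain ⟨y, rfl⟩ := hr x hx
  exact (congrArg Complex.im (w.commutes y)).trans (Complex.ofReal_im _)

theorem exists_fixed (Γ : Subgroup (Gl F)) :
    ∃ (E : Type) (_ : Field E) (_ : NumberField E) (ι : E →+* F),
      ∀ x, x ∈ Set.range ι ↔ Fx Γ x := by
  obtain ⟨E, _, _, ι, -, -, h, -⟩ := ext_fixed (le_refl Γ)
    fun γ hγ δ hδ => Γ.mul_mem (Γ.mul_mem (Γ.inv_mem hγ) hδ) hγ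
  exact ⟨E, inferInstance, inferInstance, ι, h⟩

omit [NumberField F] in
theorem exists_unit {E : Type} [Field E] {ι : E →+* F} {a : Fˣ} (h : (a : F) ∈ Set.range ι) :
    ∃ b : Eˣ, ι b = a := by
  obtain ⟨b, hb⟩ := h
  exact ⟨Units.mk0 b fun h0 => a.ne_zero (by rw [← hb, h0, map_zero]), hb⟩

/-- **The norm theorem for quaternions** over the field fixed by `Γ`. -/
theorem exists_nrd {a b c : Fˣ} (ha : Fx Γ (a : F)) (hb : Fx Γ (b : F)) (hc : Fx Γ (c : F))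
    (h : ∀ w, RlG Γ w → (w a).re < 0 → (w b).re < 0 → 0 < (w c).re) :
    ∃ q : Qt a b, (∀ γ ∈ Γ, jQ γ q = q) ∧ nrd q = c := by
  obtain ⟨E, _, _, ι, hr⟩ := exists_fixed Γ
  obtain ⟨a₀, h1⟩ := exists_unit ((hr _).2 ha)
  obtain ⟨b₀, h2⟩ := exists_unit ((hr _).2 hb)
  obtain ⟨c₀, h3⟩ := exists_unit ((hr _).2 hc)
  obtain ⟨x, y, z, t, h4⟩ := Vale.Agent.P011.Arith.Sch.quaternion_norm a₀ b₀ c₀ fun P k1 k2 => by
    obtain ⟨w, k3, k4⟩ := exists_rlG (fun x => (hr x).2) P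
    have k5 := h w k3
    rw [← h1, ← h2, ← h3, k4, k4, k4] at k5
    exact k5 k1 k2
  have h5 : ∀ γ ∈ Γ, ∀ s, γ (ι s) = ι s := fun γ hγ s => (hr _).1 ⟨s, rfl⟩ γ hγ
  refine ⟨⟨ι x, ι y, ι z, ι t⟩, fun γ hγ => ?_, ?_⟩
  · simp only [jQ, h5 γ hγ]
  · rw [← h3, h4]
    simp only [nrd, map_add, map_sub, map_mul, map_pow, h1, h2]

/-- **Split octonions**: there is a fixed frame whose first vector has square one. -/
theorem exists_split {a b c : Fˣ} (ha : Fx Γ (a : F)) (hb : Fx Γ (b : F)) (hc : Fx Γ (c : F))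
    (h : ∀ w, RlG Γ w → (w a).re < 0 → (w b).re < 0 → 0 < (w c).re) :
    ∃ (β κ : Fˣ) (i j l : Oct a b c), Fx Γ (β : F) ∧ Fx Γ (κ : F) ∧ (∀ γ ∈ Γ, jO γ i = i) ∧
      (∀ γ ∈ Γ, jO γ j = j) ∧ (∀ γ ∈ Γ, jO γ l = l) ∧ Triple i j l 1 β κ := by
  obtain ⟨q, h1, h2⟩ := exists_nrd ha hb hc h
  have h3 : Fix Γ (fun γ => jO γ) (⟨0, (c : F)⁻¹ • q⟩ : Oct a b c) := fun γ hγ => by
    ext1
    · apply QuaternionAlgebra.ext <;> exact map_zero γ
    · exact (jQ_smul γ _ _).trans (by rw [hc.inv γ hγ, h1 γ hγ])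
  obtain ⟨β, κ, j, l, k1, k2, k3, k4, k5⟩ := (oact_jO ha hb hc).exists_trip (α := 1) h3
    (by simp [bil_eq]) (by
      have h4 : nrd ((c : F)⁻¹ • q) = (c : F)⁻¹ ^ 2 * nrd q := by
        simp only [nrd, QuaternionAlgebra.re_smul, QuaternionAlgebra.imI_smul,
          QuaternionAlgebra.imJ_smul, QuaternionAlgebra.imK_smul, smul_eq_mul]
        ring
      rw [Oct.norm, h4, h2]
      simp [nrd]
      field_simp)
  exact ⟨β, κ, _, j, l, k1, k2, h3, k3, k4, k5⟩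

end real

end Vale.Agent.P011N.Cl
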