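import Vale.Agent.P011N.Cl.T.Unit
import Vale.Agent.P011N.Cl.Defs2

/-!
The data which permute the lines of the units.
-/

namespace Vale.Agent.P011N.Cl

open Vale.Agent.P011.MPQ Vale.Agent.P011.D4 Vale.Agent.P011.D4.Oct Equiv Module

variable {F : Type} [Field F] [NumberField F] {A B C : Fˣ} {Γ : Subgroup (Gl F)}
  {Φ : Subgroup (Perm (V4 A B C))} {p : Gl F → Perm (Fin 3)}

theorem Dat4.exists_oact (h : Dat4 Γ Φ) (hp : Pm Γ Φ p) (hl : ∀ φ ∈ Φ, Ln (φ 1) 1) :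
    ∃ a, OAct Γ a ∧ ∀ φ ∈ Φ, ∀ γ ∈ Γ, Semi γ φ → Au γ (p γ) φ (a γ) := by
  choose! φ k1 k2 using h.ov.onto
  have h4 : ∀ φ' ∈ Φ, ∀ γ ∈ Γ, Semi γ φ' → ∃ z ∈ Z4 A B C, φ' = z * φ γ :=
    fun φ' k3 γ k4 k5 => h.exists_Z4 (k1 γ k4) k3 (k2 γ k4) k5
  obtain ⟨a, ha, h5⟩ := Cl.exists_oact hp.mul hp.one (fun γ => φ γ)
    (fun γ hγ => by
      obtain ⟨_, _, k3⟩ := hp.sim _ (k1 γ hγ) γ (k2 γ hγ)
      exact k3.exists_au (hl _ (k1 γ hγ))) (fun γ hγ δ hδ => by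
      obtain ⟨z, hz, k3⟩ := h.exists_Z4 (Φ.mul_mem (k1 γ hγ) (k1 δ hδ)) (k1 _ (Γ.mul_mem hγ hδ))
        ((k2 γ hγ).mul (k2 δ hδ)) (k2 _ (Γ.mul_mem hγ hδ))
      exact ⟨z, hz, fun x => by rw [k3]; rfl⟩) (by
      obtain ⟨z, hz, k3⟩ := h.exists_Z4 Φ.one_mem (k1 _ Γ.one_mem) semi_id (k2 _ Γ.one_mem)
      exact ⟨z, hz, fun x => by rw [k3]; rfl⟩)
  refine ⟨a, ha, fun φ' k3 γ k4 k5 => ?_⟩
  obtain ⟨z, hz, rfl⟩ := h4 φ' k3 γ k4 k5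
  exact (h5 γ k4).zmul hz

theorem u4Stmt : U4Stmt := by
  intro F _ _ Γ Φ h hl
  obtain ⟨p, hp⟩ := h.exists_pm
  obtain ⟨a, ha, h1⟩ := h.exists_oact hp fun φ hφ i => by
    obtain ⟨γ, -, π, μ, ν, h2⟩ := h.sim φ hφ
    obtain ⟨i, rfl⟩ := π.surjective i
    obtain ⟨c, hc⟩ := hl φ hφ γ π μ ν h2 i
    exact ⟨c, by rw [h2.apply, cp, Pi.one_apply, hc, Pi.smul_apply, Pi.single_eq_same]; rfl⟩
  obtain ⟨α, β, κ, i, j, l, f1, f2, f3, f4, f5, f6, f7⟩ := ha.exists_frame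
  obtain ⟨E, -, hE⟩ := exists_emb4 f7
  obtain ⟨f, k1, k2, -⟩ := exists_emb f7.trip
  have k3 : ∀ x, E x = fun i => f (x i) := fun x => funext fun m => by rw [hE, k1]
  refine ⟨α, β, κ, f1, f2, f3, f, k2, fun φ hφ γ hγ π μ ν h2 => ?_⟩
  obtain ⟨z, hz, k4⟩ := (h1 φ hφ γ hγ h2.semi).frame ha f4 f5 f6 f7 hE hγ
  exact ⟨z, hz, fun x => by rw [← k3, ← k3, k4, hp.eq hφ h2]⟩

end Vale.Agent.P011N.Cl
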