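import Vale.Agent.P011N.Cl.T.PF

/-!
Tools: extension of the field.
-/

namespace Vale.Agent.P011N.Cl

open Equiv Module

section bc

variable {F F' V V' W W' : Type} [Field F] [CharZero F] [Field F'] [CharZero F'] [AddCommGroup V]
  [Module F V] [AddCommGroup V'] [Module F' V'] [AddCommGroup W] [Module F W] [AddCommGroup W']
  [Module F' W'] {ι : F →+* F'} {j : V → V'} {j₂ : W → W'} {Γ : Subgroup (Gl F)}
  {Γ' : Subgroup (Gl F')} {γ : Gl F} {γ' : Gl F'}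

set_option linter.unusedSectionVars false

/-- The additive homomorphism of an extension. -/
def BC.hom (h : BC ι j) : V →+ V' := AddMonoidHom.mk' j h.add

theorem BC.zero (h : BC ι j) : j 0 = 0 := map_zero h.hom

theorem BC.sub (h : BC ι j) (x y : V) : j (x - y) = j x - j y := map_sub h.hom x y

theorem BC.sum (h : BC ι j) {κ : Type} (s : Finset κ) (x : κ → V) :
    j (∑ i ∈ s, x i) = ∑ i ∈ s, j (x i) := map_sum h.hom x s

theorem BC.fin (h : BC ι j) : FiniteDimensional F V := by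
  obtain ⟨n, b, -⟩ := h.bas
  exact Module.Finite.of_basis b

theorem BC.fin' (h : BC ι j) : FiniteDimensional F' V' := by
  obtain ⟨n, -, b, -⟩ := h.bas
  exact Module.Finite.of_basis b

theorem BC.repr (h : BC ι j) {n : ℕ} {b : Basis (Fin n) F V} {b' : Basis (Fin n) F' V'}
    (hb : ∀ i, b' i = j (b i)) (x : V) (i : Fin n) : b'.repr (j x) i = ι (b.repr x i) := by
  have h1 : j x = ∑ l, ι (b.repr x l) • b' l := by
    conv_lhs => rw [← b.sum_repr x, h.sum]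
    exact Finset.sum_congr rfl fun l _ => by rw [h.smul, hb]
  rw [h1, b'.repr_sum_self]

theorem BC.inj (h : BC ι j) : Function.Injective j := by
  obtain ⟨n, b, b', hb⟩ := h.bas
  intro x y hxy
  refine b.ext_elem fun i => ι.injective ?_
  rw [← h.repr hb, ← h.repr hb, hxy]

/-- The image of the smaller space. -/
def BC.mon (h : BC ι j) : AddSubmonoid V' := AddMonoidHom.mrange h.hom

theorem BC.mem_mon (h : BC ι j) {y : V'} : y ∈ h.mon ↔ ∃ x, j x = y := Iff.rfl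

theorem BC.span (h : BC ι j) : Submodule.span F' (h.mon : Set V') = ⊤ := by
  obtain ⟨n, b, b', hb⟩ := h.bas
  rw [eq_top_iff, ← b'.span_eq]
  refine Submodule.span_mono ?_
  rintro _ ⟨i, rfl⟩
  exact ⟨b i, (hb i).symm⟩

/-- Polynomial identities hold after the extension. -/
theorem BC.pf_ext (h : BC ι j) {f g : V' → F'} (hf : f ∈ PF F' V') (hg : g ∈ PF F' V')
    (hfg : ∀ x, f (j x) = g (j x)) (y : V') : f y = g y := by
  have := h.fin'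
  refine PF.ext h.mon h.span hf hg ?_ y
  rintro _ ⟨x, rfl⟩
  exact hfg x

theorem BC.ext (h : BC ι j) {f g : V' → W'} (hf : Semi γ' f) (hg : Semi γ' g)
    (hfg : ∀ x, f (j x) = g (j x)) (y : V') : f y = g y := by
  obtain ⟨n, b, b', hb⟩ := h.bas
  rw [← b'.sum_repr y, hf.sum, hg.sum]
  exact Finset.sum_congr rfl fun i _ => by rw [hf.smul, hg.smul, hb, hfg]

theorem BC.exists_map (h : BC ι j) (h₂ : BC ι j₂) {φ : V → W} (hφ : Semi γ φ)
    (hγ : ∀ x, γ' (ι x) = ι (γ x)) :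
    ∃ φ' : V' → W', Semi γ' φ' ∧ ∀ x, φ' (j x) = j₂ (φ x) := by
  obtain ⟨n, b, b', hb⟩ := h.bas
  refine ⟨fun y => ∑ i, γ' (b'.repr y i) • j₂ (φ (b i)), fun t x y => ?_, fun x => ?_⟩
  · rw [Finset.smul_sum, ← Finset.sum_add_distrib]
    refine Finset.sum_congr rfl fun i _ => ?_
    rw [map_add, map_smul, Finsupp.add_apply, Finsupp.smul_apply, smul_eq_mul, map_add, map_mul,
      add_smul, mul_smul]
  · conv_rhs => rw [← b.sum_repr x, hφ.sum, h₂.sum]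
    refine Finset.sum_congr rfl fun i _ => ?_
    rw [h.repr hb, hγ, hφ.smul, h₂.smul]

theorem over_inv (hγ : ∀ x, γ' (ι x) = ι (γ x)) (x : F) : γ'⁻¹ (ι x) = ι (γ⁻¹ x) := by
  apply γ'.injective
  rw [hγ]
  exact (γ'.apply_symm_apply _).trans (congrArg ι (γ.apply_symm_apply x).symm)

theorem over_mul {δ : Gl F} {δ' : Gl F'} (hγ : ∀ x, γ' (ι x) = ι (γ x))
    (hδ : ∀ x, δ' (ι x) = ι (δ x)) (x : F) : (γ' * δ') (ι x) = ι ((γ * δ) x) := by
  rw [AlgEquiv.mul_apply, hδ, hγ, AlgEquiv.mul_apply]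

theorem over_unique {δ : Gl F} (hγ : ∀ x, γ' (ι x) = ι (γ x)) (hδ : ∀ x, γ' (ι x) = ι (δ x)) :
    γ = δ := AlgEquiv.ext fun x => ι.injective ((hγ x).symm.trans (hδ x))

theorem BC.exists_equiv (h : BC ι j) (h₂ : BC ι j₂) {φ : V ≃ W} (hφ : Semi γ φ)
    (hγ : ∀ x, γ' (ι x) = ι (γ x)) :
    ∃ φ' : V' ≃ W', Semi γ' φ' ∧ ∀ x, φ' (j x) = j₂ (φ x) := by
  obtain ⟨f, h1, h2⟩ := h.exists_map h₂ hφ hγ
  obtain ⟨g, h3, h4⟩ := h₂.exists_map h hφ.symm (over_inv hγ)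
  refine ⟨⟨f, g, fun y => ?_, fun y => ?_⟩, h1, h2⟩
  · have h5 := h3.comp h1
    rw [inv_mul_cancel] at h5
    exact h.ext h5 semi_id (fun x => by
      rw [Function.comp_apply, h2, h4, φ.symm_apply_apply]; rfl) y
  · have h5 := h1.comp h3
    rw [mul_inv_cancel] at h5
    exact h₂.ext h5 semi_id (fun x => by
      rw [Function.comp_apply, h4, h2, φ.apply_symm_apply]; rfl) y

/-- Two semilinear maps which are compatible with the extension have compatible automorphisms. -/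
theorem BC.over [Nontrivial V] (h : BC ι j) (h₂ : BC ι j₂) {φ : V ≃ W} {φ' : V' → W'}
    (hφ : Semi γ φ) (hφ' : Semi γ' φ') (hj : ∀ x, φ' (j x) = j₂ (φ x)) (t : F) :
    γ' (ι t) = ι (γ t) := by
  obtain ⟨x, hx⟩ := exists_ne (0 : V)
  have h0 : j₂ (φ x) ≠ 0 := fun h1 => hφ.ne_zero hx (h₂.inj (h1.trans h₂.zero.symm))
  refine smul_left_injective F' h0 ?_
  change γ' (ι t) • j₂ (φ x) = ι (γ t) • j₂ (φ x)
  rw [← h₂.smul, ← hφ.smul, ← hj, ← hj, h.smul, hφ'.smul]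

/-- Descent of vectors. -/
theorem BC.mem_range (h : BC ι j) (hE : Ext ι Γ Γ') {y : V'}
    (hy : ∀ γ' ∈ Γ', (∀ x, γ' (ι x) = ι x) → ∀ c : Perm V', Semi γ' c →
      (∀ x, c (j x) = j x) → c y = y) : ∃ x, j x = y := by
  obtain ⟨n, b, b', hb⟩ := h.bas
  have h1 : ∀ i, b'.repr y i ∈ Set.range ι := fun i => hE.fix _ fun γ' h1 h2 => by
    obtain ⟨c, h3, h4⟩ := h.exists_equiv h (γ := 1) (γ' := γ') (φ := 1) semi_id h2
    have h5 := hy γ' h1 h2 c h3 h4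
    conv_lhs at h5 => rw [← b'.sum_repr y, h3.sum]
    simp only [h3.smul, hb, h4, Perm.one_apply] at h5
    simp only [← hb] at h5
    conv_rhs => rw [← h5, b'.repr_sum_self]
  choose t ht using h1
  refine ⟨∑ i, t i • b i, ?_⟩
  rw [h.sum, ← b'.sum_repr y]
  exact Finset.sum_congr rfl fun i _ => by rw [h.smul, ht, hb]

/-- The group `Φ'` is the extension of `Φ`, up to the elements of `Z'`. -/
structure Lifts (ι : F →+* F') (j : V → V') (Γ' : Subgroup (Gl F')) (Φ : Subgroup (Perm V))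
    (Z' Φ' : Subgroup (Perm V')) : Prop where
  down : ∀ φ' ∈ Φ', IsLift j Γ' Φ Z' φ'
  up : ∀ φ ∈ Φ, ∀ γ : Gl F, Semi γ φ → ∀ γ' ∈ Γ', (∀ x, γ' (ι x) = ι (γ x)) →
    ∃ φ' ∈ Φ', Semi γ' φ' ∧ ∃ z ∈ Z', ∀ x, φ' (j x) = z (j (φ x))

/-- The group of rational points does not depend on the splitting field. -/
theorem Lifts.uiso [Nontrivial V] {Φ S : Subgroup (Perm V)} {Z' Φ' S' : Subgroup (Perm V')}
    (hL : Lifts ι j Γ' Φ Z' Φ') (hE : Ext ι Γ Γ') (h : BC ι j) (hΦ : Over Γ Φ)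
    (hS : ∀ g ∈ S, Semi (id : F → F) g) (hS' : ∀ g ∈ S', Semi (id : F' → F') g)
    (hSS : ∀ (g : Perm V) (g' : Perm V'), Semi (id : F → F) g → Semi (id : F' → F') g' →
      (∀ x, g' (j x) = j (g x)) → (g ∈ S ↔ g' ∈ S'))
    (hZ : ∀ z ∈ Z', Semi (id : F' → F') z ∧ ∀ g ∈ S', z * g = g * z) :
    UIso (Pts S Φ) (Pts S' Φ') := by
  have h1 : ∀ g : Pts S Φ, ∃ g' : Pts S' Φ', ∀ x, g'.1 (j x) = j (g.1 x) := by
    rintro ⟨g, hg, hc⟩
    obtain ⟨g', h2, h3⟩ := h.exists_equiv h (γ := 1) (γ' := 1) (hS g hg) fun _ => rfl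
    have h4 := (hSS g g' (hS g hg) h2 h3).1 hg
    refine ⟨⟨g', h4, fun φ' hφ' => ?_⟩, h3⟩
    obtain ⟨⟨γ', -, h5⟩, φ, hφ, z, hz, h6⟩ := hL.down φ' hφ'
    ext y
    refine h.ext (h5.comp_lin h2) (Semi.lin_comp h2 h5) (fun x => ?_) y
    have h7 := congrArg (fun e : Perm V' => e (j (φ x))) ((hZ z hz).2 g' h4)
    have h8 := congrArg (fun e : Perm V => e x) (hc φ hφ)
    simp only [Perm.mul_apply] at h7 h8
    change φ' (g' (j x)) = g' (φ' (j x))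
    rw [h3, h6, h6, ← h7, h3, h8]
  choose e he using h1
  have hu : ∀ {g g' : Pts S' Φ'}, (∀ x, g.1 (j x) = g'.1 (j x)) → g = g' := fun {g g'} hg =>
    Subtype.ext (Equiv.ext (h.ext (γ' := 1) (hS' _ g.2.1) (hS' _ g'.2.1) hg))
  let f : Pts S Φ →* Pts S' Φ' := MonoidHom.mk' e fun g g' => hu fun x => by
    rw [he, Subgroup.coe_mul, Subgroup.coe_mul, Perm.mul_apply, Perm.mul_apply, he, he]
  have h2 : ∀ (g' : Pts S' Φ') (x : V), ∃ y, j y = g'.1 (j x) := by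
    intro g' x
    refine h.mem_range hE fun γ' h3 h4 c h5 h6 => ?_
    obtain ⟨φ', h7, h8, z, hz, h9⟩ := hL.up 1 Φ.one_mem 1 semi_id γ' h3 h4
    have h10 : ∀ y, φ' y = z (c y) := h.ext h8 (Semi.lin_comp (hZ z hz).1 h5) fun x => by
      rw [h9, h6, Perm.one_apply]
    have h11 := congrArg (fun e : Perm V' => e (j x)) (g'.2.2 φ' h7)
    have h12 := congrArg (fun e : Perm V' => e (j x)) ((hZ z hz).2 g'.1 g'.2.1)
    simp only [Perm.mul_apply] at h11 h12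
    rw [h10, h10, h6, ← h12] at h11
    exact z.injective h11
  choose d hd using h2
  have h3 : Function.Bijective f := by
    refine ⟨fun g g' hg => Subtype.ext (Equiv.ext fun x => h.inj ?_), fun g' => ?_⟩
    · rw [← he, ← he]
      exact congrArg (fun e : Pts S' Φ' => e.1 (j x)) hg
    · let g : Perm V := ⟨d g', d g'⁻¹, fun x => h.inj (by rw [hd, hd]; simp),
        fun x => h.inj (by rw [hd, hd]; simp)⟩
      have h4 : ∀ x, g'.1 (j x) = j (g x) := fun x => (hd g' x).symm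
      have h5 : Semi (id : F → F) g := fun t x y => h.inj (by
        rw [← h4, h.add, h.add, h.smul, h.smul, hS' _ g'.2.1, h4, h4]
        rfl)
      refine ⟨⟨g, (hSS g g'.1 h5 (hS' _ g'.2.1) h4).2 g'.2.1, fun φ hφ => ?_⟩,
        hu fun x => (he _ x).trans (h4 x).symm⟩
      obtain ⟨γ, hγ, h6⟩ := hΦ.semi φ hφ
      obtain ⟨γ', hγ', h7⟩ := hE.up γ hγ
      obtain ⟨φ', h8, -, z, hz, h9⟩ := hL.up φ hφ γ h6 γ' hγ' h7
      ext x
      have h11 := congrArg (fun e : Perm V' => e (j x)) (g'.2.2 φ' h8)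
      have h12 := congrArg (fun e : Perm V' => e (j (φ x))) ((hZ z hz).2 g'.1 g'.2.1)
      simp only [Perm.mul_apply] at h11 h12
      rw [h4, h9, h9, ← h12, h4] at h11
      exact h.inj (z.injective h11)
  refine ⟨MulEquiv.ofBijective f h3, fun g => exists_congr fun n => ⟨fun h4 y => ?_, fun h4 x => ?_⟩⟩
  · have h5 : ∀ n : ℕ, Semi (⇑(1 : Gl F')) (fun y => (e g).1 y - y)^[n] := by
      intro n
      induction n with
      | zero => exact semi_id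
      | succ n ih =>
        intro t x y
        rw [Function.iterate_succ_apply', Function.iterate_succ_apply',
          Function.iterate_succ_apply', ih, hS' _ (e g).2.1, smul_sub]
        simp only [id, AlgEquiv.one_apply]
        abel
    exact h.ext (g := fun _ => 0) (h5 n) (fun _ _ _ => by simp)
      (fun x => by rw [iter_comm h.sub (he g), h4, h.zero]) y
  · apply h.inj
    rw [← iter_comm h.sub (he g), h.zero]
    exact h4 _

/-- The extension of a group of semilinear maps. -/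
theorem exists_lifts [Nontrivial V] {Φ : Subgroup (Perm V)} {Z' : Subgroup (Perm V')}
    (hE : Ext ι Γ Γ') (h : BC ι j) (hΦ : Over Γ Φ) (hZ : ∀ z ∈ Z', Semi (id : F' → F') z)
    (hN : ∀ φ ∈ Φ, ∀ (φ' : Perm V') (γ' : Gl F'), Semi γ' φ' → (∀ x, φ' (j x) = j (φ x)) →
      ∀ z ∈ Z', φ' * z * φ'⁻¹ ∈ Z') :
    ∃ Φ' : Subgroup (Perm V'), (∀ φ', φ' ∈ Φ' ↔ IsLift j Γ' Φ Z' φ') ∧ Lifts ι j Γ' Φ Z' Φ' ∧
      Over Γ' Φ' ∧ Z' ≤ Φ' := by
  have h1 : ∀ {φ' : Perm V'} {γ' : Gl F'} {z : Perm V'} {φ : Perm V}, Semi γ' φ' → z ∈ Z' →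
      (∀ x, φ' (j x) = z (j (φ x))) →
      Semi γ' ⇑(z⁻¹ * φ') ∧ ∀ x, (z⁻¹ * φ') (j x) = j (φ x) := fun {φ' γ' z φ} h1 h2 h3 =>
    ⟨Semi.lin_comp (f := φ') (hZ z⁻¹ (Z'.inv_mem h2)) h1, fun x => by simp [h3]⟩
  let Φ' : Subgroup (Perm V') :=
    { carrier := {φ' | IsLift j Γ' Φ Z' φ'}
      mul_mem' := by
        rintro φ' ψ' ⟨⟨γ', k1, k2⟩, φ, k3, z, k4, k5⟩ ⟨⟨δ', l1, l2⟩, ψ, l3, u, l4, l5⟩
        obtain ⟨m1, m2⟩ := h1 k2 k4 k5
        refine ⟨⟨γ' * δ', Γ'.mul_mem k1 l1, k2.mul l2⟩, φ * ψ, Φ.mul_mem k3 l3,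
          z * (z⁻¹ * φ' * u * (z⁻¹ * φ')⁻¹), Z'.mul_mem k4 (hN φ k3 _ _ m1 m2 u l4), fun x => ?_⟩
        rw [Perm.mul_apply, l5, Perm.mul_apply φ, ← m2]
        simp
      one_mem' := ⟨⟨1, Γ'.one_mem, semi_id⟩, 1, Φ.one_mem, 1, Z'.one_mem, fun _ => rfl⟩
      inv_mem' := by
        rintro φ' ⟨⟨γ', k1, k2⟩, φ, k3, z, k4, k5⟩
        obtain ⟨m1, m2⟩ := h1 k2 k4 k5
        have m3 : ∀ x, (z⁻¹ * φ')⁻¹ (j x) = j (φ⁻¹ x) := fun x => by
          rw [Perm.inv_eq_iff_eq, m2]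
          simp
        refine ⟨⟨γ'⁻¹, Γ'.inv_mem k1, k2.inv⟩, φ⁻¹, Φ.inv_mem k3,
          (z⁻¹ * φ')⁻¹ * z⁻¹ * (z⁻¹ * φ')⁻¹⁻¹,
          hN _ (Φ.inv_mem k3) _ _ m1.inv m3 _ (Z'.inv_mem k4), fun x => ?_⟩
        rw [← m3]
        simp }
  have h2 : ∀ φ ∈ Φ, ∀ γ : Gl F, Semi γ φ → ∀ γ' ∈ Γ', (∀ x, γ' (ι x) = ι (γ x)) →
      ∃ φ' ∈ Φ', Semi γ' φ' ∧ ∃ z ∈ Z', ∀ x, φ' (j x) = z (j (φ x)) := by
    intro φ hφ γ k1 γ' k2 k3
    obtain ⟨φ', k4, k5⟩ := h.exists_equiv h k1 k3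
    exact ⟨φ', ⟨⟨γ', k2, k4⟩, φ, hφ, 1, Z'.one_mem, k5⟩, k4, 1, Z'.one_mem, k5⟩
  refine ⟨Φ', fun _ => Iff.rfl, ⟨fun _ hφ => hφ, h2⟩, ⟨fun _ hφ => hφ.1, fun γ' hγ' => ?_⟩,
    fun z hz => ⟨⟨1, Γ'.one_mem, hZ z hz⟩, 1, Φ.one_mem, z, hz, fun _ => rfl⟩⟩
  obtain ⟨γ, k1, k2⟩ := hE.down γ' hγ'
  obtain ⟨φ, k3, k4⟩ := hΦ.onto γ k1
  obtain ⟨φ', k5, k6, -⟩ := h2 φ k3 γ k4 γ' hγ' k2
  exact ⟨φ', k5, k6⟩

/-- The elements of `Γ'` over a subgroup of `Γ`. -/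
def ovr (ι : F →+* F') (Γ' : Subgroup (Gl F')) (Δ : Subgroup (Gl F)) : Subgroup (Gl F') where
  carrier := {γ' | γ' ∈ Γ' ∧ ∃ γ ∈ Δ, ∀ x, γ' (ι x) = ι (γ x)}
  mul_mem' := by
    rintro _ _ ⟨h1, γ, h2, h3⟩ ⟨k1, δ, k2, k3⟩
    exact ⟨Γ'.mul_mem h1 k1, γ * δ, Δ.mul_mem h2 k2, over_mul h3 k3⟩
  one_mem' := ⟨Γ'.one_mem, 1, Δ.one_mem, fun _ => rfl⟩
  inv_mem' := by
    rintro _ ⟨h1, γ, h2, h3⟩
    exact ⟨Γ'.inv_mem h1, γ⁻¹, Δ.inv_mem h2, over_inv h3⟩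

theorem mem_ovr {Δ : Subgroup (Gl F)} :
    γ' ∈ ovr ι Γ' Δ ↔ γ' ∈ Γ' ∧ ∃ γ ∈ Δ, ∀ x, γ' (ι x) = ι (γ x) := Iff.rfl

theorem Ext.sub (hE : Ext ι Γ Γ') {Δ : Subgroup (Gl F)} (hle : Δ ≤ Γ) :
    Ext ι Δ (ovr ι Γ' Δ) where
  down _ h := h.2
  up γ hγ := by
    obtain ⟨γ', h1, h2⟩ := hE.up γ (hle hγ)
    exact ⟨γ', ⟨h1, γ, hγ, h2⟩, h2⟩
  fix y hy := hE.fix y fun γ' h1 h2 => hy γ' ⟨h1, 1, Δ.one_mem, h2⟩ h2

theorem Ext.fx (hE : Ext ι Γ Γ') {a : F} (h : Fx Γ a) : Fx Γ' (ι a) := fun γ' hγ' => by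
  obtain ⟨γ, h1, h2⟩ := hE.down γ' hγ'
  rw [h2, h γ h1]

theorem Ext.of_fx (hE : Ext ι Γ Γ') {y : F'} (h : Fx Γ' y) : ∃ a, Fx Γ a ∧ ι a = y := by
  obtain ⟨a, rfl⟩ := hE.fix y fun γ' h1 _ => h γ' h1
  refine ⟨a, fun γ hγ => ι.injective ?_, rfl⟩
  obtain ⟨γ', h1, h2⟩ := hE.up γ hγ
  rw [← h2, h γ' h1]

/-- A square root which does not belong to the smaller field is moved by an automorphism over the
smaller field. -/
theorem Ext.exists_neg (hE : Ext ι Γ Γ') {a : F} (ha : ¬ IsSquare a) {d : F'} (hd : d ^ 2 = ι a) :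
    ∃ σ ∈ Γ', (∀ x, σ (ι x) = ι x) ∧ σ d = -d := by
  by_contra hcon
  push Not at hcon
  obtain ⟨t, rfl⟩ := hE.fix d fun γ' h1 h2 => by
    have h3 : (γ' d) ^ 2 = d ^ 2 := by rw [← map_pow, hd, h2]
    exact (sq_eq_sq_iff_eq_or_eq_neg.1 h3).resolve_right (hcon γ' h1 h2)
  exact ha ⟨t, ι.injective (by rw [← hd, map_mul, sq])⟩

end bc

theorem extStmt : ExtStmt := by
  intro F _ _ Γ p
  let Ω := AlgebraicClosure p.SplittingField
  let F' := IntermediateField.normalClosure ℚ p.SplittingField Ω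
  have h1 : FiniteDimensional ℚ p.SplittingField := Module.Finite.trans F _
  have h2 : NumberField F' := {}
  have h6 : Algebra.IsAlgebraic ℚ Ω := Algebra.IsAlgebraic.trans ℚ p.SplittingField Ω
  have h7 : IsAlgClosure ℚ Ω := ⟨inferInstance, h6⟩
  have h5 : Normal ℚ Ω := IsAlgClosure.normal ℚ Ω
  have h8 : Normal ℚ F' := normalClosure.normal ℚ p.SplittingField Ω
  have h3 : IsGalois ℚ F' := { to_isSeparable := inferInstance, to_normal := h8 }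
  let ι : F →+* F' := (algebraMap p.SplittingField F').comp (algebraMap F p.SplittingField)
  let _ : Algebra F F' := ι.toAlgebra
  have h4 : IsGalois F F' := IsGalois.tower_top_of_isGalois ℚ F F'
  refine ⟨F', inferInstance, h2, ι, ovr ι ⊤ Γ, ⟨fun _ h => h.2, fun γ hγ => ?_, fun y hy => ?_⟩, ?_⟩
  · exact ⟨γ.liftNormal F', ⟨trivial, γ, hγ, γ.liftNormal_commutes F'⟩, γ.liftNormal_commutes F'⟩
  · refine (IsGalois.mem_range_algebraMap_iff_fixed y).2 fun g => ?_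
    exact hy (g.restrictScalars ℚ) ⟨trivial, 1, Γ.one_mem, g.commutes⟩ g.commutes
  · rw [← Polynomial.map_map]
    exact (Polynomial.SplittingField.splits p).map _

/-- An extension which contains a square root. -/
theorem exists_sqrt {F : Type} [Field F] [NumberField F] (Γ : Subgroup (Gl F)) (a : F) :
    ∃ (F' : Type) (_ : Field F') (_ : NumberField F') (ι : F →+* F') (Γ' : Subgroup (Gl F'))
      (d : F'), Ext ι Γ Γ' ∧ d ^ 2 = ι a := by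
  obtain ⟨F', _, _, ι, Γ', h1, h2⟩ := extStmt F Γ (Polynomial.X ^ 2 - Polynomial.C a)
  obtain ⟨d, hd⟩ := h2.exists_eval_eq_zero (by
    rw [Polynomial.degree_map, Polynomial.degree_X_pow_sub_C two_pos]
    simp)
  refine ⟨F', inferInstance, inferInstance, ι, Γ', d, h1, ?_⟩
  simpa [sub_eq_zero] using hd

/-- The field fixed by a normal subgroup. -/
theorem ext_fixed {F : Type} [Field F] [NumberField F] {Γ Δ : Subgroup (Gl F)} (hle : Δ ≤ Γ)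
    (hn : ∀ γ ∈ Γ, ∀ δ ∈ Δ, γ⁻¹ * δ * γ ∈ Δ) :
    ∃ (E : Type) (_ : Field E) (_ : NumberField E) (ι : E →+* F) (Γ₁ : Subgroup (Gl E)),
      Ext ι Γ₁ Γ ∧ (∀ x, x ∈ Set.range ι ↔ Fx Δ x) ∧
        ∀ γ : Gl F, (∀ x, γ (ι x) = ι x) → γ ∈ Δ := by
  let E := IntermediateField.fixedField Δ
  let ι : E →+* F := algebraMap E F
  have h1 : ∀ x, x ∈ Set.range ι ↔ Fx Δ x := fun x =>
    ⟨by rintro ⟨y, rfl⟩; exact fx_iff.2 y.2, fun h => ⟨⟨x, fx_iff.1 h⟩, rfl⟩⟩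
  let Γ₁ : Subgroup (Gl E) :=
    { carrier := {γ₁ | ∃ γ ∈ Γ, ∀ x, γ (ι x) = ι (γ₁ x)}
      mul_mem' := by
        rintro _ _ ⟨γ, h2, h3⟩ ⟨δ, k2, k3⟩
        exact ⟨γ * δ, Γ.mul_mem h2 k2, over_mul h3 k3⟩
      one_mem' := ⟨1, Γ.one_mem, fun _ => rfl⟩
      inv_mem' := by
        rintro _ ⟨γ, h2, h3⟩
        exact ⟨γ⁻¹, Γ.inv_mem h2, over_inv h3⟩ }
  refine ⟨E, inferInstance, inferInstance, ι, Γ₁, ⟨fun γ hγ => ?_, fun _ h => h, fun y hy => ?_⟩,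
    h1, fun γ hγ => ?_⟩
  · have h2 : ∀ x : E, ∃ y, ι y = γ (ι x) := fun x => (h1 _).2 fun δ hδ => by
      have h3 := (h1 _).1 ⟨x, rfl⟩ _ (hn γ hγ δ hδ)
      conv_rhs => rw [← h3]
      exact (γ.apply_symm_apply _).symm
    choose r hr using h2
    let r' : E →+* E :=
      { toFun := r
        map_one' := ι.injective (by rw [hr, map_one, map_one])
        map_mul' := fun s t => ι.injective (by rw [hr, map_mul, map_mul, map_mul, hr, hr])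
        map_zero' := ι.injective (by rw [hr, map_zero, map_zero])
        map_add' := fun s t => ι.injective (by rw [hr, map_add, map_add, map_add, hr, hr]) }
    have h3 : ∀ x, γ (ι x) = ι (AlgEquiv.ofBijective r'.toRatAlgHom
      (Algebra.IsAlgebraic.algHom_bijective _) x) := fun x => (hr x).symm
    exact ⟨_, ⟨γ, hγ, h3⟩, h3⟩
  · exact (h1 y).2 fun δ hδ => hy δ (hle hδ) fun x => (h1 _).1 ⟨x, rfl⟩ δ hδ
  · rw [← IntermediateField.fixingSubgroup_fixedField Δ]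
    exact fun x => hγ x

end Vale.Agent.P011N.Cl
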