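import Vale.Agent.P011N.Cl.T.Oct

/-!
Tools: semilinear similitudes of the sum of the three representations of dimension eight.
-/

namespace Vale.Agent.P011N.Cl

open Vale.Agent.P011.MPQ Vale.Agent.P011.D4 Vale.Agent.P011.D4.Oct Equiv Module

section be

variable {F : Type} [Field F] {A B C A' B' C' A'' B'' C'' : Fˣ}

/-- The quadratic map of the composition. -/
def be (x : V4 A B C) : V4 A B C := fun i => star (x (i + 1) * x (i + 2))

theorem tr_cyc (x y z : Oct A B C) : bil (x * y * z) 1 = bil (y * z * x) 1 := by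
  rw [bil_mul_left', one_mul, bil_mul_left, bil_mul_left' (y * z), one_mul, bil_mul_left']

theorem tr_be (x y z : Oct A B C) : bil (x * y * z) 1 = bil (star (x * y)) z := by
  rw [bil_mul_left', one_mul, bil_star_left]

theorem tr_star (x y z : Oct A B C) : bil (star x * star y * star z) 1 = bil (z * y * x) 1 := by
  rw [← star_mul, ← star_mul, bil_star_left, star_one, tr_cyc z, bil_mul_left, mul_one,
    bil_mul_left' (y * x), one_mul]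

theorem tau_eq (x : V4 A B C) (i : Fin 3) : tau x = bil (be x i) (x i) := by
  fin_cases i
  · exact (tr_cyc _ _ _).trans (tr_be _ _ _)
  · exact (tr_cyc _ _ _).symm.trans (tr_be _ _ _)
  · exact tr_be _ _ _

theorem be_congr {x y : V4 A B C} {i : Fin 3} (h : ∀ j, j ≠ i → x j = y j) : be x i = be y i := by
  have h1 : ∀ i : Fin 3, i + 1 ≠ i ∧ i + 2 ≠ i := by decide
  rw [be, be, h _ (h1 i).1, h _ (h1 i).2]

theorem norm_be (x : V4 A B C) (i : Fin 3) :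
    norm (be x i) = norm (x (i + 1)) * norm (x (i + 2)) := by
  rw [be, Oct.norm_star, Oct.norm_mul]

theorem be_smul (l : Fin 3 → F) (x : V4 A B C) (i : Fin 3) :
    be (fun j => l j • x j) i = (l (i + 1) * l (i + 2)) • be x i := by
  rw [be, be, smul_mul_assoc, mul_smul_comm, smul_smul, star_smul_oct]

theorem tau_smul (l : Fin 3 → F) (x : V4 A B C) :
    tau (fun j => l j • x j) = l 0 * l 1 * l 2 * tau x := by
  simp only [tau, smul_mul_assoc, mul_smul_comm, bil_smul_left]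
  ring

theorem tau_one : tau (fun _ => 1 : V4 A B C) = 2 := by
  rw [tau, mul_one, mul_one, bil_self, Oct.norm_one, mul_one]

variable {U : Type} [AddCommGroup U] [Module F U] {f : U → V4 A B C}

theorem PM.obe (hf : PM F f) (i : Fin 3) : PM F fun x => be (f x) i :=
  ((hf.proj _).omul (hf.proj _)).ostar

theorem PM.otau (hf : PM F f) : (fun x => tau (f x)) ∈ PF F U :=
  (((hf.proj 0).omul (hf.proj 1)).omul (hf.proj 2)).obil (PM.const 1)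

/-- The scalars on the three summands. -/
def zs (l : Fin 3 → F) (hl : ∀ i, l i ≠ 0) : Perm (V4 A B C) where
  toFun x i := l i • x i
  invFun x i := (l i)⁻¹ • x i
  left_inv _ := funext fun i => inv_smul_smul₀ (hl i) _
  right_inv _ := funext fun i => smul_inv_smul₀ (hl i) _

theorem zs_apply (l : Fin 3 → F) (hl : ∀ i, l i ≠ 0) (x : V4 A B C) (i : Fin 3) :
    zs l hl x i = l i • x i := rfl

theorem ne_of_scal {z : Perm (V4 A B C)} {l : Fin 3 → F} (h : ∀ x i, z x i = l i • x i)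
    (i : Fin 3) : l i ≠ 0 := by
  intro h0
  obtain ⟨x, hx⟩ := z.surjective fun _ => 1
  have h1 := h x i
  rw [hx, h0, zero_smul] at h1
  exact oct_one_ne h1

theorem mem_Z4 {z : Perm (V4 A B C)} :
    z ∈ Z4 A B C ↔ ∃ l : Fin 3 → F, ∀ x i, z x i = l i • x i := by
  refine ⟨fun h => ?_, fun h => Subgroup.subset_closure h⟩
  induction h using Subgroup.closure_induction with
  | mem x hx => exact hx
  | one => exact ⟨1, fun x i => (one_smul F _).symm⟩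
  | mul x y _ _ hx hy =>
    obtain ⟨l, hl⟩ := hx
    obtain ⟨m, hm⟩ := hy
    exact ⟨l * m, fun v i => by rw [Perm.mul_apply, hl, hm, smul_smul, Pi.mul_apply]⟩
  | inv x _ hx =>
    obtain ⟨l, hl⟩ := hx
    refine ⟨l⁻¹, fun v i => ?_⟩
    rw [Pi.inv_apply, eq_inv_smul_iff₀ (ne_of_scal hl i), ← hl]
    simp

theorem zs_mem (l : Fin 3 → F) (hl : ∀ i, l i ≠ 0) : zs l hl ∈ Z4 A B C :=
  mem_Z4.2 ⟨l, fun _ _ => rfl⟩

theorem semi_Z4 {z : Perm (V4 A B C)} (hz : z ∈ Z4 A B C) : Semi (id : F → F) z := by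
  obtain ⟨l, hl⟩ := mem_Z4.1 hz
  intro t x y
  funext i
  simp only [hl, Pi.add_apply, Pi.smul_apply, smul_add, id, smul_comm t]

/-- The component of a similitude. -/
def cp (φ : V4 A B C → V4 A' B' C') (π : Perm (Fin 3)) (i : Fin 3) (u : Oct A B C) :
    Oct A' B' C' := φ (Pi.single i u) (π i)

end be

section sim

variable {F : Type} [Field F] [CharZero F] {A B C A' B' C' A'' B'' C'' : Fˣ} {γ γ' : Gl F}
  {π π' : Perm (Fin 3)} {μ μ' : Fin 3 → F} {ν ν' : F} {φ : V4 A B C ≃ V4 A' B' C'}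

theorem sim4_one {f : V4 A B C → V4 A' B' C'} :
    Sim4 (⇑(1 : Gl F)) π μ ν f ↔ Sim4 id π μ ν f := Iff.rfl

theorem Sim4.obil {f : V4 A B C → V4 A' B' C'} (h : Sim4 γ π μ ν f) (x y : V4 A B C) (i : Fin 3) :
    bil (f x (π i)) (f y (π i)) = μ i * γ (bil (x i) (y i)) := by
  rw [bil, bil, ← Pi.add_apply (f x), ← h.semi.add, h.nrm, h.nrm, h.nrm, Pi.add_apply, map_sub,
    map_sub]
  ring

theorem Sim4.congr (h : Sim4 γ π μ ν φ) {x y : V4 A B C} {i : Fin 3} (hxy : x i = y i) :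
    φ x (π i) = φ y (π i) := by
  refine eq_of_bil fun w => ?_
  obtain ⟨v, hv⟩ := φ.surjective fun _ => w
  have h1 : w = φ v (π i) := by rw [hv]
  rw [h1, h.obil, h.obil, hxy]

theorem Sim4.apply (h : Sim4 γ π μ ν φ) (x : V4 A B C) (i : Fin 3) :
    φ x (π i) = cp φ π i (x i) := h.congr (by rw [Pi.single_eq_same])

theorem Sim4.cp_semi {f : V4 A B C → V4 A' B' C'} (h : Sim4 γ π μ ν f) (i : Fin 3) :
    Semi γ (cp f π i) := fun t x y => by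
  rw [cp, cp, cp, Pi.single_add, Pi.single_smul', h.semi]
  rfl

theorem Sim4.single (h : Sim4 γ π μ ν φ) (i : Fin 3) (u : Oct A B C) :
    φ (Pi.single i u) = Pi.single (π i) (cp φ π i u) := by
  funext j
  obtain ⟨j, rfl⟩ := π.surjective j
  rw [h.apply]
  by_cases hj : j = i
  · rw [hj, Pi.single_eq_same, Pi.single_eq_same]
  · rw [Pi.single_eq_of_ne hj, Pi.single_eq_of_ne (π.injective.ne hj), (h.cp_semi j).zero]

theorem Sim4.cp_norm {f : V4 A B C → V4 A' B' C'} (h : Sim4 γ π μ ν f) (i : Fin 3)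
    (u : Oct A B C) : norm (cp f π i u) = μ i * γ (norm u) := by
  rw [cp, h.nrm, Pi.single_eq_same]

theorem Sim4.cp_bil {f : V4 A B C → V4 A' B' C'} (h : Sim4 γ π μ ν f) (i : Fin 3)
    (u v : Oct A B C) : bil (cp f π i u) (cp f π i v) = μ i * γ (bil u v) := by
  rw [cp, cp, h.obil, Pi.single_eq_same, Pi.single_eq_same]

theorem Sim4.cp_surj (h : Sim4 γ π μ ν φ) (i : Fin 3) : Function.Surjective (cp φ π i) := by
  intro w
  obtain ⟨v, hv⟩ := φ.surjective fun _ => w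
  exact ⟨v i, by rw [← h.apply, hv]⟩

theorem Sim4.cp_ne {f : V4 A B C → V4 A' B' C'} (h : Sim4 γ π μ ν f) (i : Fin 3)
    {u : Oct A B C} (hu : u ≠ 0) : cp f π i u ≠ 0 := fun h0 => hu (eq_zero_of_bil fun v => by
  have h1 := h.cp_bil i u v
  rw [h0, bil_zero_left] at h1
  exact (map_eq_zero γ).1 ((mul_eq_zero.1 h1.symm).resolve_left (h.ne i)))

theorem Sim4.apply_ne (h : Sim4 γ π μ ν φ) {x : V4 A B C} {i : Fin 3} (hx : x i ≠ 0) :
    φ x (π i) ≠ 0 := by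
  rw [h.apply]
  exact h.cp_ne i hx

theorem Sim4.obe (h : Sim4 γ π μ ν φ) (x : V4 A B C) (i : Fin 3) :
    μ i • be (φ x) (π i) = ν • φ (be x) (π i) := by
  refine eq_of_bil fun w => ?_
  obtain ⟨u, rfl⟩ := h.cp_surj i w
  have h1 := h.tri (Function.update x i u)
  rw [tau_eq _ (π i), tau_eq _ i, h.apply, Function.update_self,
    be_congr (y := x) fun j hj => Function.update_of_ne hj _ _,
    be_congr (y := φ x) fun j hj => ?_] at h1
  · rw [bil_smul_left, bil_smul_left, h1, h.apply, h.cp_bil]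
    ring
  · obtain ⟨j, rfl⟩ := π.surjective j
    exact h.congr (Function.update_of_ne (fun h2 => hj (congrArg π h2)) _ _)

theorem Sim4.comp {f : V4 A B C → V4 A' B' C'} {g : V4 A'' B'' C'' → V4 A B C}
    (h : Sim4 γ π μ ν f) (h' : Sim4 γ' π' μ' ν' g) :
    Sim4 (⇑(γ * γ')) (π * π') (fun i => μ (π' i) * γ (μ' i)) (ν * γ ν') (f ∘ g) where
  semi := h.semi.comp h'.semi
  nrm x i := by
    rw [Function.comp_apply, Perm.mul_apply, h.nrm, h'.nrm, map_mul, mul_assoc]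
    rfl
  tri x := by
    rw [Function.comp_apply, h.tri, h'.tri, map_mul, mul_assoc]
    rfl
  ne i := mul_ne_zero (h.ne _) ((map_ne_zero γ).2 (h'.ne i))
  ne' := mul_ne_zero h.ne' ((map_ne_zero γ).2 h'.ne')

theorem Sim4.symm (h : Sim4 γ π μ ν φ) :
    Sim4 (⇑γ⁻¹) π⁻¹ (fun i => γ⁻¹ (μ (π⁻¹ i))⁻¹) (γ⁻¹ ν⁻¹) φ.symm where
  semi := h.semi.symm
  nrm x i := by
    have h1 := h.nrm (φ.symm x) (π⁻¹ i)
    rw [φ.apply_symm_apply, show π (π⁻¹ i) = i from π.apply_symm_apply i] at h1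
    rw [h1, ← map_mul, inv_mul_cancel_left₀ (h.ne _)]
    exact (γ.symm_apply_apply _).symm
  tri x := by
    have h1 := h.tri (φ.symm x)
    rw [φ.apply_symm_apply] at h1
    rw [h1, ← map_mul, inv_mul_cancel_left₀ h.ne']
    exact (γ.symm_apply_apply _).symm
  ne i := (map_ne_zero _).2 (inv_ne_zero (h.ne _))
  ne' := (map_ne_zero _).2 (inv_ne_zero h.ne')

omit [CharZero F] in
theorem sim4_id : Sim4 id 1 1 1 (id : V4 A B C → V4 A B C) where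
  semi _ _ _ := rfl
  nrm _ _ := (one_mul _).symm
  tri _ := (one_mul _).symm
  ne _ := one_ne_zero
  ne' := one_ne_zero

theorem Sim4.cast {f : V4 A B C → V4 A' B' C'} (h : Sim4 γ π μ ν f) (h1 : γ = γ') (h2 : π = π')
    (h3 : ∀ i, μ i = μ' i) (h4 : ν = ν') : Sim4 γ' π' μ' ν' f := by
  rwa [← h1, ← h2, ← funext h3, ← h4]

theorem Sim4.perm_eq (h : Sim4 γ π μ ν φ) (h' : Sim4 γ' π' μ' ν' φ) : π = π' := by
  ext1 i
  by_contra hne
  have h1 := h.cp_ne i oct_one_ne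
  rw [cp, h'.single, Pi.single_eq_of_ne hne] at h1
  exact h1 rfl

omit [CharZero F] in
theorem sim4_scal {z : Perm (V4 A B C)} {l : Fin 3 → F} (h : ∀ x i, z x i = l i • x i) :
    Sim4 id 1 (fun i => l i ^ 2) (l 0 * l 1 * l 2) z where
  semi := semi_Z4 (mem_Z4.2 ⟨l, h⟩)
  nrm x i := by rw [Perm.one_apply, h, Oct.norm_smul, id]
  tri x := by rw [show z x = fun i => l i • x i from funext (h x), tau_smul, id]
  ne i := pow_ne_zero _ (ne_of_scal h i)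
  ne' := mul_ne_zero (mul_ne_zero (ne_of_scal h 0) (ne_of_scal h 1)) (ne_of_scal h 2)

omit [CharZero F] in
theorem sim4_Z4 {z : Perm (V4 A B C)} (hz : z ∈ Z4 A B C) : ∃ μ ν, Sim4 id 1 μ ν z := by
  obtain ⟨l, hl⟩ := mem_Z4.1 hz
  exact ⟨_, _, sim4_scal hl⟩

theorem mem_S4 {g : Perm (V4 A B C)} : g ∈ S4 A B C ↔ Sim4 id 1 1 1 g := by
  refine ⟨fun h => ?_, fun h => Subgroup.subset_closure h⟩
  induction h using Subgroup.closure_induction with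
  | mem x hx => exact hx
  | one => exact sim4_id
  | mul x y _ _ hx hy =>
    exact ((sim4_one.2 hx).comp (sim4_one.2 hy)).cast (γ' := 1) (mul_one _) (mul_one _)
      (fun _ => by simp) (by simp)
  | inv x _ hx =>
    exact (sim4_one.2 hx).symm.cast (γ' := 1) inv_one inv_one (fun _ => by simp) (by simp)

theorem Sim4.scal (h : Sim4 γ π μ ν φ) (l : Fin 3 → F) (x : V4 A B C) :
    φ (fun i => l i • x i) = fun i => γ (l (π⁻¹ i)) • φ x i := by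
  funext i
  obtain ⟨i, rfl⟩ := π.surjective i
  rw [h.apply, h.apply, (h.cp_semi i).smul, show π⁻¹ (π i) = i from π.symm_apply_apply i]

theorem Sim4.conj_Z4 (h : Sim4 γ π μ ν φ) {z : Perm (V4 A B C)} (hz : z ∈ Z4 A B C) :
    φ.permCongr z ∈ Z4 A' B' C' := by
  obtain ⟨l, hl⟩ := mem_Z4.1 hz
  refine mem_Z4.2 ⟨fun i => γ (l (π⁻¹ i)), fun x i => ?_⟩
  rw [permCongr_apply, show z _ = _ from funext (hl _), h.scal, φ.apply_symm_apply]

theorem Sim4.conj_S4 (h : Sim4 γ π μ ν φ) {g : Perm (V4 A B C)} (hg : g ∈ S4 A B C) :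
    φ.permCongr g ∈ S4 A' B' C' := by
  refine mem_S4.2 (((h.comp (sim4_one.2 (mem_S4.1 hg))).comp h.symm).cast (γ' := 1) (by simp)
    (by simp) (fun i => ?_) ?_)
  · simp [h.ne]
  · simp [h.ne']

theorem Sim4.comm_Z4 (h : Sim4 id 1 μ ν φ) {l : Fin 3 → F} (x : V4 A B C) :
    φ (fun i => l i • x i) = fun i => l i • φ x i := (sim4_one.2 h).scal l x

theorem comm_Z4_S4 {z g : Perm (V4 A B C)} (hz : z ∈ Z4 A B C) (hg : g ∈ S4 A B C) :
    z * g = g * z := by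
  obtain ⟨l, hl⟩ := mem_Z4.1 hz
  ext1 x
  rw [Perm.mul_apply, Perm.mul_apply, show z x = _ from funext (hl _),
    show z (g x) = _ from funext (hl _), (mem_S4.1 hg).comm_Z4]

end sim

section dat

variable {F : Type} [Field F] [CharZero F] {A B C A' B' C' : Fˣ} {Γ Γ' : Subgroup (Gl F)}
  {Φ : Subgroup (Perm (V4 A B C))} {γ : Gl F} {φ φ' : Perm (V4 A B C)}

theorem Dat4.sim_of (h : Dat4 Γ Φ) (hφ : φ ∈ Φ) (hγ : Semi γ φ) : ∃ π μ ν, Sim4 γ π μ ν φ := by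
  obtain ⟨δ, -, π, μ, ν, h1⟩ := h.sim φ hφ
  rw [hγ.unique h1.semi]
  exact ⟨π, μ, ν, h1⟩

theorem Dat4.exists_Z4 (h : Dat4 Γ Φ) (hφ : φ ∈ Φ) (hφ' : φ' ∈ Φ) (hγ : Semi γ φ)
    (hγ' : Semi γ φ') : ∃ z ∈ Z4 A B C, φ' = z * φ := by
  refine ⟨φ' * φ⁻¹, h.lin _ (Φ.mul_mem hφ' (Φ.inv_mem hφ)) ?_, by simp⟩
  have h1 := hγ'.mul hγ.inv
  rwa [mul_inv_cancel] at h1

/-- The homomorphism to the permutations of the summands. -/
structure Pm (Γ : Subgroup (Gl F)) (Φ : Subgroup (Perm (V4 A B C))) (p : Gl F → Perm (Fin 3)) :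
    Prop where
  sim : ∀ φ ∈ Φ, ∀ γ : Gl F, Semi γ φ → ∃ μ ν, Sim4 γ (p γ) μ ν φ
  mul : ∀ γ ∈ Γ, ∀ δ ∈ Γ, p (γ * δ) = p γ * p δ

theorem Dat4.exists_pm (h : Dat4 Γ Φ) : ∃ p, Pm Γ Φ p := by
  have h1 : ∀ γ : Gl F, ∃ π, ∀ φ ∈ Φ, Semi γ φ → ∃ μ ν, Sim4 γ π μ ν φ := by
    intro γ
    by_cases hγ : γ ∈ Γ
    · obtain ⟨φ, h2, h3⟩ := h.ov.onto γ hγ
      obtain ⟨π, μ, ν, h4⟩ := h.sim_of h2 h3
      refine ⟨π, fun φ' h5 h6 => ?_⟩
      obtain ⟨z, hz, rfl⟩ := h.exists_Z4 h2 h5 h3 h6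
      obtain ⟨μ', ν', h7⟩ := sim4_Z4 hz
      exact ⟨_, _, ((sim4_one.2 h7).comp h4).cast (one_mul _) (one_mul _) (fun _ => rfl) rfl⟩
    · exact ⟨1, fun φ h2 h3 => absurd (h.ov.mem h2 h3) hγ⟩
  choose p hp using h1
  refine ⟨p, fun φ hφ γ hγ => hp γ φ hφ hγ, fun γ hγ δ hδ => ?_⟩
  obtain ⟨φ, h2, h3⟩ := h.ov.onto γ hγ
  obtain ⟨ψ, h4, h5⟩ := h.ov.onto δ hδ
  obtain ⟨_, _, h6⟩ := hp γ φ h2 h3
  obtain ⟨_, _, h7⟩ := hp δ ψ h4 h5
  obtain ⟨_, _, h8⟩ := hp _ _ (Φ.mul_mem h2 h4) (h3.mul h5)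
  exact h8.perm_eq (h6.comp h7)

variable {p : Gl F → Perm (Fin 3)}

theorem Pm.one (h : Pm Γ Φ p) : p 1 = 1 := by
  have h1 := h.mul 1 Γ.one_mem 1 Γ.one_mem
  rw [mul_one] at h1
  exact left_eq_mul.1 h1

theorem Pm.inv (h : Pm Γ Φ p) (hγ : γ ∈ Γ) : p γ⁻¹ = (p γ)⁻¹ := by
  rw [eq_inv_iff_mul_eq_one, ← h.mul _ (Γ.inv_mem hγ) _ hγ, inv_mul_cancel, h.one]

theorem Pm.eq (h : Pm Γ Φ p) (hφ : φ ∈ Φ) {π μ ν} (h1 : Sim4 γ π μ ν φ) : π = p γ := by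
  obtain ⟨_, _, h2⟩ := h.sim φ hφ γ h1.semi
  exact h1.perm_eq h2

/-- The homomorphism. -/
def Pm.hom (h : Pm Γ Φ p) : Γ →* Perm (Fin 3) :=
  MonoidHom.mk' (fun γ => p γ.1) fun γ δ => h.mul _ γ.2 _ δ.2

theorem Pm.res (h : Pm Γ Φ p) (hle : Γ' ≤ Γ) : Pm Γ' (res Φ Γ') p :=
  ⟨fun φ hφ => h.sim φ hφ.1, fun γ hγ δ hδ => h.mul γ (hle hγ) δ (hle hδ)⟩

theorem Dat4.res (h : Dat4 Γ Φ) (hle : Γ' ≤ Γ) : Dat4 Γ' (res Φ Γ') where
  ov := h.ov.res hle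
  sim φ hφ := by
    obtain ⟨h1, γ, h2, h3⟩ := hφ
    exact ⟨γ, h2, h.sim_of h1 h3⟩
  lin φ hφ := h.lin φ hφ.1
  sat z hz := ⟨h.sat hz, 1, Γ'.one_mem, semi_Z4 hz⟩

theorem trial_iff (h : Dat4 Γ Φ) (hp : Pm Γ Φ p) : Trial Φ ↔ ∀ i, ∃ γ ∈ Γ, p γ i ≠ i := by
  refine forall_congr' fun i => ⟨?_, ?_⟩
  · rintro ⟨φ, h1, x, j, h2, h3⟩
    obtain ⟨γ, h4, h5⟩ := h.ov.semi φ h1
    obtain ⟨_, _, h6⟩ := hp.sim φ h1 γ h5
    refine ⟨γ, h4, fun h7 => h3 ?_⟩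
    rw [h6.single, h7, Pi.single_eq_of_ne h2]
  · rintro ⟨γ, h1, h2⟩
    obtain ⟨φ, h3, h4⟩ := h.ov.onto γ h1
    obtain ⟨_, _, h5⟩ := hp.sim φ h3 γ h4
    exact ⟨φ, h3, 1, _, h2, h5.cp_ne i oct_one_ne⟩

variable {ψ : V4 A' B' C' ≃ V4 A B C} {μ : Fin 3 → F} {ν : F}

theorem Sim4.tr (hψ : Sim4 id 1 μ ν ψ) {φ : Perm (V4 A' B' C')} {π μ' ν'}
    (h : Sim4 γ π μ' ν' (ψ.permCongr φ)) : ∃ μ'' ν'', Sim4 γ π μ'' ν'' φ := by
  have h1 := (((sim4_one.2 hψ).symm.comp h).comp (sim4_one.2 hψ)).cast (γ' := γ) (π' := π)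
    (by simp) (by simp) (fun _ => rfl) rfl
  have h2 : (ψ.symm ∘ ψ.permCongr φ) ∘ ψ = φ := funext fun x => by simp
  rw [h2] at h1
  exact ⟨_, _, h1⟩

theorem semi_congr {V W : Type} [AddCommGroup V] [Module F V] [AddCommGroup W] [Module F W]
    {ψ : V ≃ W} (hψ : Semi (id : F → F) ψ) {φ : Perm V} : Semi γ (ψ.permCongr φ) ↔ Semi γ φ := by
  refine ⟨fun h => ?_, fun h => Semi.lin_comp (g := ψ) hψ (h.comp_lin hψ.symm_lin)⟩
  have h1 := Semi.lin_comp hψ.symm_lin (h.comp_lin hψ)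
  have h2 : ψ.symm ∘ ψ.permCongr φ ∘ ψ = φ := funext fun x => by simp
  rwa [h2] at h1

theorem Over.tr {V W : Type} [AddCommGroup V] [Module F V] [AddCommGroup W] [Module F W]
    {ψ : V ≃ W} (hψ : Semi (id : F → F) ψ) {Φ : Subgroup (Perm W)} (h : Over Γ Φ) :
    Over Γ (tr ψ Φ) where
  semi φ hφ := by
    obtain ⟨γ, h1, h2⟩ := h.semi _ hφ
    exact ⟨γ, h1, (semi_congr hψ).1 h2⟩
  onto γ hγ := by
    obtain ⟨φ, h1, h2⟩ := h.onto γ hγ
    exact ⟨_, symm_mem_tr.2 h1, (semi_congr hψ.symm_lin).2 h2⟩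

theorem congr_symm {V W : Type} (ψ : V ≃ W) (φ : Perm V) :
    ψ.symm.permCongr (ψ.permCongr φ) = φ := ψ.permCongr.symm_apply_apply φ

theorem Dat4.tr (h : Dat4 Γ Φ) (hψ : Sim4 id 1 μ ν ψ) : Dat4 Γ (tr ψ Φ) where
  ov := h.ov.tr hψ.semi
  sim φ hφ := by
    obtain ⟨γ, h1, π, _, _, h2⟩ := h.sim _ hφ
    exact ⟨γ, h1, π, hψ.tr h2⟩
  lin φ hφ h1 := by
    rw [← congr_symm ψ φ]
    exact (sim4_one.2 hψ).symm.conj_Z4 (h.lin _ hφ ((semi_congr (γ := 1) hψ.semi).2 h1))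
  sat z hz := h.sat ((sim4_one.2 hψ).conj_Z4 hz)

theorem Pm.tr (h : Pm Γ Φ p) (hψ : Sim4 id 1 μ ν ψ) : Pm Γ (tr ψ Φ) p where
  sim φ hφ γ hγ := by
    obtain ⟨_, _, h1⟩ := h.sim _ hφ γ ((semi_congr hψ.semi).2 hγ)
    exact hψ.tr h1
  mul := h.mul

theorem uiso_tr4 (hψ : Sim4 id 1 μ ν ψ) (Φ : Subgroup (Perm (V4 A B C))) :
    UIso (Pts (S4 A' B' C') (tr ψ Φ)) (Pts (S4 A B C) Φ) :=
  uiso_tr (semi_one.2 hψ.semi).sub fun g => ⟨(sim4_one.2 hψ).conj_S4, fun hg => by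
    rw [← congr_symm ψ g]
    exact (sim4_one.2 hψ).symm.conj_S4 hg⟩

end dat

end Vale.Agent.P011N.Cl
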