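import Vale.Agent.P011N.Cl.T.D4

/-!
Tools: extension of the field for the data of type `D₄`, and the standard semilinear maps.
-/

namespace Vale.Agent.P011N.Cl

open Vale.Agent.P011.MPQ Vale.Agent.P011.D4 Vale.Agent.P011.D4.Oct Equiv Module

section lift

variable {F F' : Type} [Field F] [Field F'] {A B C A₂ B₂ C₂ : Fˣ} {A' B' C' A₂' B₂' C₂' : F'ˣ}

/-- A map of the fields, applied to the coefficients of a triple. -/
def j4 (ι : F → F') (x : V4 A B C) : V4 A' B' C' := fun i => jO ι (x i)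

theorem bc_j4 (ι : F →+* F') : BC ι (j4 ι : V4 A B C → V4 A' B' C') := (bc_jO ι).pi (Fin 3)

theorem tau_j4 {R : Type} [FunLike R F F'] [RingHomClass R F F'] {ι : R}
    (h : Par ι A B C A' B' C') (x : V4 A B C) : tau (j4 ι x : V4 A' B' C') = ι (tau x) := by
  rw [tau, tau, ← bil_jO h, jO_mul h, jO_mul h, jO_one]
  rfl

theorem j4_single {R : Type} [FunLike R F F'] [RingHomClass R F F'] (ι : R) (i : Fin 3)
    (u : Oct A B C) : (j4 ι (Pi.single i u) : V4 A' B' C') = Pi.single i (jO ι u) :=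
  funext fun l => Pi.apply_single (fun _ => jO ι) (fun _ => jO_zero ι) i u l

variable [CharZero F] [CharZero F'] {ι : F →+* F'} {γ : Gl F} {γ' : Gl F'} {π : Perm (Fin 3)}
  {μ : Fin 3 → F} {ν : F} {φ : V4 A B C → V4 A₂ B₂ C₂} {φ' : V4 A' B' C' → V4 A₂' B₂' C₂'}

theorem Sim4.up (h : Sim4 γ π μ ν φ) (hP : Par ι A B C A' B' C')
    (hP₂ : Par ι A₂ B₂ C₂ A₂' B₂' C₂') (hs : Semi γ' φ') (hγ : ∀ x, γ' (ι x) = ι (γ x))
    (hj : ∀ x, φ' (j4 ι x) = j4 ι (φ x)) : Sim4 γ' π (fun i => ι (μ i)) (ι ν) φ' where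
  semi := hs
  nrm y i := by
    have h1 := (bc_j4 ι (A := A) (B := B) (C := C)).pf_ext
      (PF.semi (PM.id.proj (π i)).onorm hs)
      (PF.mul (PF.const (γ'.symm (ι (μ i)))) (PM.id.proj i).onorm) (fun x => by
        rw [hj, j4, j4, norm_jO hP₂, norm_jO hP, h.nrm, map_mul, map_mul, ← hγ,
          γ'.symm_apply_apply]) y
    rw [γ'.symm_apply_eq, map_mul, γ'.apply_symm_apply] at h1
    exact h1
  tri y := by
    have h1 := (bc_j4 ι (A := A) (B := B) (C := C)).pf_ext (PF.semi PM.id.otau hs)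
      (PF.mul (PF.const (γ'.symm (ι ν))) PM.id.otau) (fun x => by
        rw [hj, tau_j4 hP₂, tau_j4 hP, h.tri, map_mul, map_mul, ← hγ, γ'.symm_apply_apply]) y
    rw [γ'.symm_apply_eq, map_mul, γ'.apply_symm_apply] at h1
    exact h1
  ne i := (map_ne_zero ι).2 (h.ne i)
  ne' := (map_ne_zero ι).2 h.ne'

theorem Sim4.down (h : Sim4 γ' π (fun i => ι (μ i)) (ι ν) φ') (hP : Par ι A B C A' B' C')
    (hP₂ : Par ι A₂ B₂ C₂ A₂' B₂' C₂') (hs : Semi γ φ) (hγ : ∀ x, γ' (ι x) = ι (γ x))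
    (hj : ∀ x, φ' (j4 ι x) = j4 ι (φ x)) : Sim4 γ π μ ν φ where
  semi := hs
  nrm x i := ι.injective (by
    have h1 := h.nrm (j4 ι x) i
    rwa [hj, j4, j4, norm_jO hP₂, norm_jO hP, hγ, ← map_mul] at h1)
  tri x := ι.injective (by
    have h1 := h.tri (j4 ι x)
    rwa [hj, tau_j4 hP₂, tau_j4 hP, hγ, ← map_mul] at h1)
  ne i := (map_ne_zero ι).1 (h.ne i)
  ne' := (map_ne_zero ι).1 h.ne'

variable {Γ : Subgroup (Gl F)} {Γ' : Subgroup (Gl F')} {Φ : Subgroup (Perm (V4 A B C))}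
  {Φ' : Subgroup (Perm (V4 A' B' C'))}

theorem Lifts.uiso4 (hL : Lifts ι (j4 ι) Γ' Φ (Z4 A' B' C') Φ') (hE : Ext ι Γ Γ')
    (hP : Par ι A B C A' B' C') (hΦ : Over Γ Φ) :
    UIso (Pts (S4 A B C) Φ) (Pts (S4 A' B' C') Φ') := by
  refine hL.uiso hE (bc_j4 ι) hΦ (fun g hg => (mem_S4.1 hg).semi) (fun g hg => (mem_S4.1 hg).semi)
    (fun g g' h1 h2 h3 => ?_) fun z hz => ⟨semi_Z4 hz, fun g => comm_Z4_S4 hz⟩
  rw [mem_S4, mem_S4]
  refine ⟨fun h => ((sim4_one.2 h).up (γ' := 1) hP hP h2 (fun _ => rfl) h3).cast rfl rfl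
    (fun _ => map_one ι) (map_one ι), fun h => ?_⟩
  exact ((sim4_one.2 h).cast rfl rfl (fun _ => (map_one ι).symm) (map_one ι).symm).down (γ := 1)
    hP hP h1 (fun _ => rfl) h3

/-- **Extension of the field.** -/
theorem Dat4.exists_lift (h : Dat4 Γ Φ) (hE : Ext ι Γ Γ') (hP : Par ι A B C A' B' C') :
    ∃ Φ' : Subgroup (Perm (V4 A' B' C')), Dat4 Γ' Φ' ∧ Lifts ι (j4 ι) Γ' Φ (Z4 A' B' C') Φ' ∧
      ∀ φ', φ' ∈ Φ' ↔ IsLift (j4 ι) Γ' Φ (Z4 A' B' C') φ' := by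
  have h1 : ∀ φ ∈ Φ, ∀ (φ' : Perm (V4 A' B' C')) (γ' : Gl F'), Semi γ' φ' →
      (∀ x, φ' (j4 ι x) = j4 ι (φ x)) → ∃ π μ ν, Sim4 γ' π μ ν φ' := by
    intro φ hφ φ' γ' h1 h2
    obtain ⟨γ, -, π, μ, ν, h3⟩ := h.sim φ hφ
    exact ⟨π, _, _, h3.up hP hP h1 ((bc_j4 ι).over (bc_j4 ι) h3.semi h1 h2) h2⟩
  obtain ⟨Φ', h2, h3, h4, h5⟩ := exists_lifts hE (bc_j4 ι) h.ov (fun z => semi_Z4)
    fun φ hφ φ' γ' k1 k2 z hz => by
      obtain ⟨_, _, _, k3⟩ := h1 φ hφ φ' γ' k1 k2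
      exact k3.conj_Z4 hz
  have h6 : ∀ {φ' z : Perm (V4 A' B' C')} {γ' : Gl F'}, Semi γ' φ' → z ∈ Z4 A' B' C' →
      Semi γ' ⇑(z⁻¹ * φ') := fun {φ' z γ'} k1 k2 =>
    Semi.lin_comp (f := φ') (semi_Z4 ((Z4 A' B' C').inv_mem k2)) k1
  refine ⟨Φ', ⟨h4, fun φ' hφ' => ?_, fun φ' hφ' k0 => ?_, h5⟩, h3, h2⟩
  · obtain ⟨⟨γ', k1, k2⟩, φ, k3, z, k4, k5⟩ := (h2 φ').1 hφ'
    obtain ⟨π, μ, ν, k6⟩ := h1 φ k3 (z⁻¹ * φ') γ' (h6 k2 k4) fun x => by simp [k5]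
    obtain ⟨μ', ν', k7⟩ := sim4_Z4 k4
    have k8 := ((sim4_one.2 k7).comp k6).cast (one_mul _) (one_mul _) (fun _ => rfl) rfl
    rw [← Perm.coe_mul, mul_inv_cancel_left] at k8
    exact ⟨γ', k1, π, _, _, k8⟩
  · obtain ⟨-, φ, k3, z, k4, k5⟩ := (h2 φ').1 hφ'
    have k6 : ∀ x, (z⁻¹ * φ') (j4 ι x) = j4 ι (φ x) := fun x => by simp [k5]
    have k7 := h6 (semi_one.2 k0) k4
    obtain ⟨γ, -, k8⟩ := h.ov.semi φ k3
    have k9 : γ = 1 := over_unique ((bc_j4 ι).over (bc_j4 ι) k8 k7 k6) fun _ => rfl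
    subst k9
    obtain ⟨l, hl⟩ := mem_Z4.1 (h.lin φ k3 k8)
    have k10 : z⁻¹ * φ' = zs (fun i => ι (l i)) fun i => (map_ne_zero ι).2 (ne_of_scal hl i) :=
      Equiv.ext ((bc_j4 ι (A := A) (B := B) (C := C)).ext k7 (semi_Z4 (zs_mem _ _)) fun x => by
        rw [k6]
        funext i
        rw [j4, hl, jO_smul]
        rfl)
    rw [inv_mul_eq_iff_eq_mul] at k10
    rw [k10]
    exact (Z4 A' B' C').mul_mem k4 (zs_mem _ _)

theorem Lifts.pm (hL : Lifts ι (j4 ι) Γ' Φ (Z4 A' B' C') Φ') (h : Dat4 Γ Φ)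
    (hP : Par ι A B C A' B' C') {p : Gl F → Perm (Fin 3)} {p' : Gl F' → Perm (Fin 3)}
    (hp : Pm Γ Φ p) (hp' : Pm Γ' Φ' p') (h1 : γ ∈ Γ) (h2 : γ' ∈ Γ')
    (hγ : ∀ x, γ' (ι x) = ι (γ x)) : p' γ' = p γ := by
  obtain ⟨φ, k1, k2⟩ := h.ov.onto γ h1
  obtain ⟨φ', k3, k4, z, k5, k6⟩ := hL.up φ k1 γ k2 γ' h2 hγ
  obtain ⟨_, _, k7⟩ := hp.sim φ k1 γ k2
  obtain ⟨_, _, k8⟩ := hp'.sim φ' k3 γ' k4
  obtain ⟨_, _, k9⟩ := sim4_Z4 ((Z4 A' B' C').inv_mem k5)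
  have k10 := (sim4_one.2 k9).comp k8
  rw [← Perm.coe_mul, one_mul, one_mul] at k10
  exact k10.perm_eq (k7.up hP hP k10.semi hγ fun x => by simp [k6])

theorem Lifts.trial (hL : Lifts ι (j4 ι) Γ' Φ (Z4 A' B' C') Φ') (h : Dat4 Γ Φ) (h' : Dat4 Γ' Φ')
    (hE : Ext ι Γ Γ') (hP : Par ι A B C A' B' C') (hT : Trial Φ) : Trial Φ' := by
  obtain ⟨p, hp⟩ := h.exists_pm
  obtain ⟨p', hp'⟩ := h'.exists_pm
  rw [trial_iff h hp] at hT
  rw [trial_iff h' hp']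
  intro i
  obtain ⟨γ, k1, k2⟩ := hT i
  obtain ⟨γ', k3, k4⟩ := hE.up γ k1
  exact ⟨γ', k3, by rwa [hL.pm h hP hp hp' k1 k3 k4]⟩

end lift

section st

variable {F : Type} [Field F] {A B C : Fˣ}

theorem even_perm : ∀ π : Perm (Fin 3), Perm.sign π = 1 → ∃ s, ∀ i, π i = i + s := by decide

theorem odd_perm : ∀ π : Perm (Fin 3), Perm.sign π ≠ 1 → ∃ s, ∀ i, π i = s - i := by decide

theorem tau_shift (x : V4 A B C) (s : Fin 3) : tau (fun i => x (i + s)) = tau x := by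
  fin_cases s
  · simp
  · exact (tr_cyc _ _ _).symm
  · exact tr_cyc _ _ _

theorem tau_refl (x : V4 A B C) (s : Fin 3) : tau (fun i => star (x (s - i))) = tau x := by
  refine (tr_star _ _ _).trans ?_
  fin_cases s
  · exact (tr_cyc _ _ _).symm
  · exact tr_cyc _ _ _
  · rfl

variable [CharZero F] {γ δ : Gl F} {π π' : Perm (Fin 3)}

/-- The component of the standard map. -/
def so4 (γ : F → F) (π : Perm (Fin 3)) (u : Oct A B C) : Oct A B C :=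
  if Perm.sign π = 1 then jO γ u else star (jO γ u)

omit [CharZero F] in
theorem st4_apply (γ : F → F) (x : V4 A B C) (i : Fin 3) : st4 γ π x (π i) = so4 γ π (x i) := by
  rw [st4, show π⁻¹ (π i) = i from π.symm_apply_apply i, so4]

theorem so4_semi (γ : Gl F) (π : Perm (Fin 3)) : Semi γ (so4 γ π : Oct A B C → Oct A B C) :=
  fun t x y => by
    rw [so4, so4, so4, jO_add, jO_smul]
    split_ifs
    · rfl
    · rw [star_add, star_smul_oct]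

theorem so4_mul (u : Oct A B C) : so4 (⇑(γ * δ)) (π * π') u = so4 γ π (so4 δ π' u) := by
  rcases Int.units_eq_one_or (Perm.sign π) with h | h <;>
    rcases Int.units_eq_one_or (Perm.sign π') with h' | h' <;>
    simp [so4, h, h', jO_star, jO_jO] <;> rfl

theorem st4_mul (x : V4 A B C) : st4 (⇑(γ * δ)) (π * π') x = st4 γ π (st4 δ π' x) := by
  funext i
  obtain ⟨i, rfl⟩ := (π * π').surjective i
  rw [st4_apply, Perm.mul_apply, st4_apply, st4_apply, so4_mul]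

theorem st4_one (x : V4 A B C) : st4 (⇑(1 : Gl F)) 1 x = x := funext fun _ => if_pos (map_one _)

/-- The standard map, as a bijection. -/
def stP (γ : Gl F) (π : Perm (Fin 3)) : Perm (V4 A B C) where
  toFun := st4 γ π
  invFun := st4 (⇑γ⁻¹) π⁻¹
  left_inv x := by rw [← st4_mul, inv_mul_cancel, inv_mul_cancel, st4_one]
  right_inv x := by rw [← st4_mul, mul_inv_cancel, mul_inv_cancel, st4_one]

theorem stP_apply (x : V4 A B C) : stP γ π x = st4 γ π x := rfl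

theorem stP_mul : (stP (γ * δ) (π * π') : Perm (V4 A B C)) = stP γ π * stP δ π' :=
  Equiv.ext st4_mul

theorem so4_norm (h : Par γ A B C A B C) (u : Oct A B C) : norm (so4 γ π u) = γ (norm u) := by
  rw [so4]
  split_ifs
  · exact norm_jO h u
  · rw [Oct.norm_star, norm_jO h]

theorem semi_st4 : Semi γ (st4 γ π : V4 A B C → V4 A B C) := fun t x y =>
  funext fun i => so4_semi γ π t (x (π⁻¹ i)) (y (π⁻¹ i))

theorem sim4_st4 (h : Par γ A B C A B C) : Sim4 γ π 1 1 (st4 γ π : V4 A B C → V4 A B C) where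
  semi := semi_st4
  nrm x i := by rw [st4_apply, so4_norm h, Pi.one_apply, one_mul]
  tri x := by
    rw [one_mul, ← tau_j4 h]
    by_cases h1 : Perm.sign π = 1
    · obtain ⟨s, hs⟩ := even_perm π⁻¹ (by rwa [Perm.sign_inv])
      rw [← tau_shift (j4 γ x) s]
      exact congrArg tau (funext fun i => by rw [st4, if_pos h1, hs, j4])
    · obtain ⟨s, hs⟩ := odd_perm π⁻¹ (by rwa [Perm.sign_inv])
      rw [← tau_refl (j4 γ x) s]
      exact congrArg tau (funext fun i => by rw [st4, if_neg h1, hs, j4])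
  ne _ := one_ne_zero
  ne' := one_ne_zero

theorem par_of_fx {Γ : Subgroup (Gl F)} (ha : Fx Γ (A : F)) (hb : Fx Γ (B : F))
    (hc : Fx Γ (C : F)) (hγ : γ ∈ Γ) : Par γ A B C A B C := ⟨ha γ hγ, hb γ hγ, hc γ hγ⟩

end st

end Vale.Agent.P011N.Cl
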