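import Vale.Agent.P011N.Cl.T.D4L
import Vale.Agent.P011.E6.Ids

/-!
Tools: semilinear similitudes of the sum of the two representations of dimension twenty-seven.
-/

namespace Vale.Agent.P011N.Cl

open Vale.Agent.P011.MPQ Vale.Agent.P011.D4 Vale.Agent.P011.D4.Oct Vale.Agent.P011.E6 Equiv Module

section alb

variable {F F' : Type} [Field F] [Field F'] {A B C : Fˣ} {A' B' C' : F'ˣ}

/-- The diagonal part and the off-diagonal part. -/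
def albE (A B C : Fˣ) : Alb A B C ≃ₗ[F] (Fin 3 → F) × V4 A B C where
  toFun x := (![x.d1, x.d2, x.d3], ![x.x1, x.x2, x.x3])
  invFun v := ⟨v.1 0, v.1 1, v.1 2, v.2 0, v.2 1, v.2 2⟩
  left_inv _ := rfl
  right_inv v := Prod.ext (funext fun m => by fin_cases m <;> rfl)
    (funext fun m => by fin_cases m <;> rfl)
  map_add' x y := Prod.ext (funext fun m => by fin_cases m <;> rfl)
    (funext fun m => by fin_cases m <;> rfl)
  map_smul' t x := Prod.ext (funext fun m => by fin_cases m <;> rfl)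
    (funext fun m => by fin_cases m <;> rfl)

instance albFin : Module.Finite F (Alb A B C) := Module.Finite.equiv (albE A B C).symm

instance albNontrivial : Nontrivial (Alb A B C) := (albE A B C).toEquiv.nontrivial

theorem bc_jA (ι : F →+* F') : BC ι (jA ι : Alb A B C → Alb A' B' C') :=
  (((bc_self ι).pi (Fin 3)).prod (bc_j4 ι)).congr (albE A B C) (albE A' B' C') fun _ =>
    Prod.ext (funext fun m => by fin_cases m <;> rfl) (funext fun m => by fin_cases m <;> rfl)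

/-- A map of the fields, applied to the coefficients of a pair. -/
def j6 (ι : F → F') (x : V6 A B C) : V6 A' B' C' := (jA ι x.1, jA ι x.2)

theorem bc_j6 (ι : F →+* F') : BC ι (j6 ι : V6 A B C → V6 A' B' C') := (bc_jA ι).prod (bc_jA ι)

section hom

variable {R : Type} [FunLike R F F'] [RingHomClass R F F'] {ι : R}

theorem cub_jA (h : Par ι A B C A' B' C') (x : Alb A B C) :
    Alb.cub (jA ι x : Alb A' B' C') = ι (Alb.cub x) := by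
  simp only [Alb.cub, jA, map_add, map_sub, map_mul, ← norm_jO h, ← bil_jO h, jO_mul h, jO_one]

theorem tf_jA (h : Par ι A B C A' B' C') (x y : Alb A B C) :
    Alb.tf (jA ι x : Alb A' B' C') (jA ι y) = ι (Alb.tf x y) := by
  simp only [Alb.tf, jA, map_add, map_mul, ← bil_jO h]

variable (ι)

theorem jA_add (x y : Alb A B C) : (jA ι (x + y) : Alb A' B' C') = jA ι x + jA ι y := by
  ext1 <;> first | exact map_add ι _ _ | exact jO_add ι _ _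

theorem jA_smul (t : F) (x : Alb A B C) : (jA ι (t • x) : Alb A' B' C') = ι t • jA ι x := by
  ext1 <;> first | exact map_mul ι _ _ | exact jO_smul ι _ _

theorem jA_zero : (jA ι (0 : Alb A B C) : Alb A' B' C') = 0 := by
  ext1 <;> first | exact map_zero ι | exact jO_zero ι

end hom

variable {U : Type} [AddCommGroup U] [Module F U] {f g : U → Alb A B C}

theorem PM.ad (hf : PM F f) (i : Fin 3) : (fun x => (albE A B C (f x)).1 i) ∈ PF F U :=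
  (((hf.map (albE A B C).toLinearMap).map (LinearMap.fst F _ _)).proj i).pf

theorem PM.ax (hf : PM F f) (i : Fin 3) : PM F fun x => (albE A B C (f x)).2 i :=
  ((hf.map (albE A B C).toLinearMap).map (LinearMap.snd F _ _)).proj i

theorem PM.acub [CharZero F] (hf : PM F f) : (fun x => Alb.cub (f x)) ∈ PF F U :=
  PF.add (PF.sub (PF.sub (PF.sub (PF.mul (PF.mul (hf.ad 0) (hf.ad 1)) (hf.ad 2))
    (PF.mul (hf.ad 0) (hf.ax 0).onorm)) (PF.mul (hf.ad 1) (hf.ax 1).onorm))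
    (PF.mul (hf.ad 2) (hf.ax 2).onorm))
    ((((hf.ax 0).omul (hf.ax 1)).omul (hf.ax 2)).obil (PM.const 1))

theorem PM.atf (hf : PM F f) (hg : PM F g) : (fun x => Alb.tf (f x) (g x)) ∈ PF F U :=
  (PM.bilin (LinearMap.mk₂ F Alb.tf Alb.tf_add_left Alb.tf_smul_left Alb.tf_add_right
    fun t x y => Alb.tf_smul_right t x y) hf hg).pf

theorem PM.fst {W W' : Type} [AddCommGroup W] [Module F W] [AddCommGroup W'] [Module F W']
    {f : U → W × W'} (hf : PM F f) : PM F fun x => (f x).1 := hf.map (LinearMap.fst F _ _)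

theorem PM.snd {W W' : Type} [AddCommGroup W] [Module F W] [AddCommGroup W'] [Module F W']
    {f : U → W × W'} (hf : PM F f) : PM F fun x => (f x).2 := hf.map (LinearMap.snd F _ _)

theorem eq_zero_of_adj [CharZero F] {u : Alb A B C} (h : ∀ w, Alb.tf (Alb.adj w) u = 0) :
    u = 0 := by
  have h1 : u.d1 = 0 := by simpa [Alb.tf, Alb.adj] using h ⟨0, 1, 1, 0, 0, 0⟩
  have h2 : u.d2 = 0 := by simpa [Alb.tf, Alb.adj] using h ⟨1, 0, 1, 0, 0, 0⟩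
  have h3 : u.d3 = 0 := by simpa [Alb.tf, Alb.adj] using h ⟨1, 1, 0, 0, 0, 0⟩
  ext1
  · exact h1
  · exact h2
  · exact h3
  · refine eq_zero_of_bil fun x => ?_
    simpa [Alb.tf, Alb.adj, h1, bil_neg_left, bil_comm x] using h ⟨1, 0, 0, x, 0, 0⟩
  · refine eq_zero_of_bil fun x => ?_
    simpa [Alb.tf, Alb.adj, h2, bil_neg_left, bil_comm x] using h ⟨0, 1, 0, 0, x, 0⟩
  · refine eq_zero_of_bil fun x => ?_
    simpa [Alb.tf, Alb.adj, h3, bil_neg_left, bil_comm x] using h ⟨0, 0, 1, 0, 0, x⟩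

theorem eq_zero_of_cub [CharZero F] {u : Alb A B C} (h : ∀ w, Alb.cub (w + u) = Alb.cub w) :
    u = 0 := by
  refine eq_zero_of_adj fun w => ?_
  have h0 := h 0
  have h1 := h w
  have h2 := h (-w)
  rw [zero_add, Alb.cub_zero] at h0
  rw [Alb.cub_add, h0] at h1 h2
  rw [Alb.adj_neg, Alb.tf_neg_left] at h2
  linear_combination (1 / 2 : F) * h1 + (1 / 2 : F) * h2

/-- The scalars on the two summands. -/
def zs6 (l₁ l₂ : F) (h₁ : l₁ ≠ 0) (h₂ : l₂ ≠ 0) : Perm (V6 A B C) where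
  toFun x := (l₁ • x.1, l₂ • x.2)
  invFun x := (l₁⁻¹ • x.1, l₂⁻¹ • x.2)
  left_inv _ := Prod.ext (inv_smul_smul₀ h₁ _) (inv_smul_smul₀ h₂ _)
  right_inv _ := Prod.ext (smul_inv_smul₀ h₁ _) (smul_inv_smul₀ h₂ _)

theorem ne_of_scal6 {z : Perm (V6 A B C)} {l₁ l₂ : F} (h : ∀ x, z x = (l₁ • x.1, l₂ • x.2)) :
    l₁ ≠ 0 ∧ l₂ ≠ 0 := by
  obtain ⟨u, hu⟩ := _root_.exists_ne (0 : Alb A B C)
  obtain ⟨x, hx⟩ := z.surjective (u, u)
  rw [h, Prod.mk.injEq] at hx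
  exact ⟨fun h0 => hu (by rw [← hx.1, h0, zero_smul]), fun h0 => hu (by rw [← hx.2, h0, zero_smul])⟩

theorem mem_Z6 {z : Perm (V6 A B C)} :
    z ∈ Z6 A B C ↔ ∃ l₁ l₂ : F, ∀ x, z x = (l₁ • x.1, l₂ • x.2) := by
  refine ⟨fun h => ?_, fun h => Subgroup.subset_closure h⟩
  induction h using Subgroup.closure_induction with
  | mem x hx => exact hx
  | one => exact ⟨1, 1, fun x => by simp⟩
  | mul x y _ _ hx hy =>
    obtain ⟨l, l', hl⟩ := hx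
    obtain ⟨m, m', hm⟩ := hy
    exact ⟨l * m, l' * m', fun v => by rw [Perm.mul_apply, hl, hm, smul_smul, smul_smul]⟩
  | inv x _ hx =>
    obtain ⟨l, l', hl⟩ := hx
    refine ⟨l⁻¹, l'⁻¹, fun v => ?_⟩
    rw [Perm.inv_eq_iff_eq, hl, smul_inv_smul₀ (ne_of_scal6 hl).1,
      smul_inv_smul₀ (ne_of_scal6 hl).2]

theorem zs6_mem (l₁ l₂ : F) (h₁ : l₁ ≠ 0) (h₂ : l₂ ≠ 0) : zs6 l₁ l₂ h₁ h₂ ∈ Z6 A B C :=
  mem_Z6.2 ⟨l₁, l₂, fun _ => rfl⟩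

theorem semi_Z6 {z : Perm (V6 A B C)} (hz : z ∈ Z6 A B C) : Semi (id : F → F) z := by
  obtain ⟨l, l', hl⟩ := mem_Z6.1 hz
  intro t x y
  simp only [hl, Prod.fst_add, Prod.snd_add, Prod.smul_fst, Prod.smul_snd, smul_add, id,
    smul_comm t, Prod.smul_mk, Prod.mk_add_mk]

theorem sim6_scal {z : Perm (V6 A B C)} {l₁ l₂ : F} (h : ∀ x, z x = (l₁ • x.1, l₂ • x.2)) :
    Sim6 id false (l₁ ^ 3) (l₂ ^ 3) (l₁ * l₂) z where
  semi := semi_Z6 (mem_Z6.2 ⟨_, _, h⟩)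
  c1 x := by rw [h, Alb.cub_smul]; rfl
  c2 x := by rw [h, Alb.cub_smul]; rfl
  tf x := by rw [h, Alb.tf_smul_left, Alb.tf_smul_right, mul_assoc, id]
  ne := ⟨pow_ne_zero _ (ne_of_scal6 h).1, pow_ne_zero _ (ne_of_scal6 h).2,
    mul_ne_zero (ne_of_scal6 h).1 (ne_of_scal6 h).2⟩

theorem sim6_Z6 {z : Perm (V6 A B C)} (hz : z ∈ Z6 A B C) :
    ∃ ν₁ ν₂ l, Sim6 id false ν₁ ν₂ l z := by
  obtain ⟨l, l', hl⟩ := mem_Z6.1 hz
  exact ⟨_, _, _, sim6_scal hl⟩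

theorem sim6_id : Sim6 id false 1 1 1 (id : V6 A B C → V6 A B C) where
  semi _ _ _ := rfl
  c1 _ := (one_mul _).symm
  c2 _ := (one_mul _).symm
  tf _ := (one_mul _).symm
  ne := ⟨one_ne_zero, one_ne_zero, one_ne_zero⟩

end alb

section sim

variable {F : Type} [Field F] [CharZero F] {A B C A' B' C' A'' B'' C'' : Fˣ} {γ γ' : Gl F}
  {ε ε' : Bool} {ν₁ ν₂ l ν₁' ν₂' l' : F} {φ : V6 A B C ≃ V6 A' B' C'}

theorem sim6_one {f : V6 A B C → V6 A' B' C'} :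
    Sim6 (⇑(1 : Gl F)) ε ν₁ ν₂ l f ↔ Sim6 id ε ν₁ ν₂ l f := Iff.rfl

/-- The first component of the image only depends on one component. -/
theorem Sim6.fst_zero (h : Sim6 γ ε ν₁ ν₂ l φ) {x : V6 A B C}
    (hx : (if ε then x.2 else x.1) = 0) : (φ x).1 = 0 := by
  refine eq_zero_of_cub fun w => ?_
  obtain ⟨v, hv⟩ := φ.surjective (w, w)
  have h1 : w = (φ v).1 := by rw [hv]
  have h2 : (if ε then (v + x).2 else (v + x).1) = if ε then v.2 else v.1 := by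
    rw [← add_zero (if ε then v.2 else v.1), ← hx]
    cases ε <;> rfl
  rw [h1, ← Prod.fst_add, ← h.semi.add, h.c1, h.c1, h2]

theorem Sim6.snd_zero (h : Sim6 γ ε ν₁ ν₂ l φ) {x : V6 A B C}
    (hx : (if ε then x.1 else x.2) = 0) : (φ x).2 = 0 := by
  refine eq_zero_of_cub fun w => ?_
  obtain ⟨v, hv⟩ := φ.surjective (w, w)
  have h1 : w = (φ v).2 := by rw [hv]
  have h2 : (if ε then (v + x).1 else (v + x).2) = if ε then v.1 else v.2 := by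
    rw [← add_zero (if ε then v.1 else v.2), ← hx]
    cases ε <;> rfl
  rw [h1, ← Prod.snd_add, ← h.semi.add, h.c2, h.c2, h2]

theorem Sim6.inner_iff (h : Sim6 γ ε ν₁ ν₂ l φ) : (∀ x, (φ (x, 0)).2 = 0) ↔ ε = false := by
  refine ⟨fun h1 => ?_, fun h1 x => h.snd_zero (by simp [h1])⟩
  cases ε
  · rfl
  · obtain ⟨u, hu⟩ := _root_.exists_ne (0 : Alb A B C)
    exact absurd (Prod.ext (h.fst_zero rfl) (h1 u)) (h.semi.ne_zero (x := (u, 0)) (by simp [hu]))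

theorem Sim6.eps_eq (h : Sim6 γ ε ν₁ ν₂ l φ) (h' : Sim6 γ' ε' ν₁' ν₂' l' φ) : ε = ε' := by
  have h1 := h.inner_iff.symm.trans h'.inner_iff
  cases ε <;> cases ε' <;> simp_all

theorem Sim6.comp {f : V6 A B C → V6 A' B' C'} {g : V6 A'' B'' C'' → V6 A B C}
    (h : Sim6 γ ε ν₁ ν₂ l f) (h' : Sim6 γ' ε' ν₁' ν₂' l' g) :
    Sim6 (⇑(γ * γ')) (xor ε ε') (ν₁ * γ (if ε then ν₂' else ν₁')) (ν₂ * γ (if ε then ν₁' else ν₂'))
      (l * γ l') (f ∘ g) where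
  semi := h.semi.comp h'.semi
  c1 x := by
    rw [Function.comp_apply, h.c1]
    cases ε <;> cases ε' <;> simp [h'.c1, h'.c2, mul_assoc]
  c2 x := by
    rw [Function.comp_apply, h.c2]
    cases ε <;> cases ε' <;> simp [h'.c1, h'.c2, mul_assoc]
  tf x := by
    rw [Function.comp_apply, h.tf, h'.tf, map_mul, mul_assoc]
    rfl
  ne := by
    obtain ⟨h1, h2, h3⟩ := h.ne
    obtain ⟨h4, h5, h6⟩ := h'.ne
    cases ε <;> simp [*]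

theorem Sim6.symm (h : Sim6 γ ε ν₁ ν₂ l φ) :
    Sim6 (⇑γ⁻¹) ε (γ⁻¹ (if ε then ν₂ else ν₁)⁻¹) (γ⁻¹ (if ε then ν₁ else ν₂)⁻¹) (γ⁻¹ l⁻¹)
      φ.symm where
  semi := h.semi.symm
  c1 x := by
    have h1 := h.c1 (φ.symm x)
    have h2 := h.c2 (φ.symm x)
    rw [φ.apply_symm_apply] at h1 h2
    cases ε <;> simp [h1, h2, h.ne.1, h.ne.2.1]
  c2 x := by
    have h1 := h.c1 (φ.symm x)
    have h2 := h.c2 (φ.symm x)
    rw [φ.apply_symm_apply] at h1 h2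
    cases ε <;> simp [h1, h2, h.ne.1, h.ne.2.1]
  tf x := by
    have h1 := h.tf (φ.symm x)
    rw [φ.apply_symm_apply] at h1
    rw [h1, ← map_mul, inv_mul_cancel_left₀ h.ne.2.2]
    exact (γ.symm_apply_apply _).symm
  ne := by
    obtain ⟨h1, h2, h3⟩ := h.ne
    cases ε <;> simp [*]

theorem Sim6.cast {f : V6 A B C → V6 A' B' C'} (h : Sim6 γ ε ν₁ ν₂ l f) (h1 : γ = γ')
    (h2 : ε = ε') (h3 : ν₁ = ν₁') (h4 : ν₂ = ν₂') (h5 : l = l') : Sim6 γ' ε' ν₁' ν₂' l' f := by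
  rwa [← h1, ← h2, ← h3, ← h4, ← h5]

theorem mem_S6 {g : Perm (V6 A B C)} : g ∈ S6 A B C ↔ Sim6 id false 1 1 1 g := by
  refine ⟨fun h => ?_, fun h => Subgroup.subset_closure h⟩
  induction h using Subgroup.closure_induction with
  | mem x hx => exact hx
  | one => exact sim6_id
  | mul x y _ _ hx hy =>
    exact ((sim6_one.2 hx).comp (sim6_one.2 hy)).cast (γ' := 1) (mul_one _) rfl (by simp)
      (by simp) (by simp)
  | inv x _ hx => exact (sim6_one.2 hx).symm.cast (γ' := 1) inv_one rfl (by simp) (by simp) (by simp)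

theorem Sim6.scal (h : Sim6 γ ε ν₁ ν₂ l φ) (s t : F) (x : V6 A B C) :
    φ (s • x.1, t • x.2) =
      (γ (if ε then t else s) • (φ x).1, γ (if ε then s else t) • (φ x).2) := by
  have h1 : ((s • x.1, t • x.2) : V6 A B C) = s • (x.1, 0) + t • (0, x.2) := by simp
  have h2 : φ x = φ (x.1, 0) + φ (0, x.2) := by rw [← h.semi.add]; simp
  rw [h1, h.semi.add, h.semi.smul, h.semi.smul, h2]
  cases ε
  · have h3 := h.fst_zero (x := (0, x.2)) rfl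
    have h4 := h.snd_zero (x := (x.1, 0)) rfl
    exact Prod.ext (by simp [h3]) (by simp [h4])
  · have h3 := h.fst_zero (x := (x.1, 0)) rfl
    have h4 := h.snd_zero (x := (0, x.2)) rfl
    exact Prod.ext (by simp [h3]) (by simp [h4])

theorem Sim6.conj_Z6 (h : Sim6 γ ε ν₁ ν₂ l φ) {z : Perm (V6 A B C)} (hz : z ∈ Z6 A B C) :
    φ.permCongr z ∈ Z6 A' B' C' := by
  obtain ⟨s, t, hl⟩ := mem_Z6.1 hz
  exact mem_Z6.2 ⟨_, _, fun x => by rw [permCongr_apply, hl, h.scal, φ.apply_symm_apply]⟩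

theorem Sim6.conj_S6 (h : Sim6 γ ε ν₁ ν₂ l φ) {g : Perm (V6 A B C)} (hg : g ∈ S6 A B C) :
    φ.permCongr g ∈ S6 A' B' C' := by
  obtain ⟨h1, h2, h3⟩ := h.ne
  refine mem_S6.2 (((h.comp (sim6_one.2 (mem_S6.1 hg))).comp h.symm).cast (γ' := 1) (by simp)
    (by simp) ?_ ?_ (by simp [h3])) <;> cases ε <;> simp [h1, h2]

theorem comm_Z6_S6 {z g : Perm (V6 A B C)} (hz : z ∈ Z6 A B C) (hg : g ∈ S6 A B C) :
    z * g = g * z := by
  obtain ⟨s, t, hl⟩ := mem_Z6.1 hz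
  ext1 x
  rw [Perm.mul_apply, Perm.mul_apply, hl, hl, (sim6_one.2 (mem_S6.1 hg)).scal]
  rfl

end sim

section dat

variable {F : Type} [Field F] [CharZero F] {A B C A' B' C' : Fˣ} {Γ Γ' : Subgroup (Gl F)}
  {Φ : Subgroup (Perm (V6 A B C))} {γ : Gl F} {φ φ' : Perm (V6 A B C)}

theorem Dat6.sim_of (h : Dat6 Γ Φ) (hφ : φ ∈ Φ) (hγ : Semi γ φ) :
    ∃ ε ν₁ ν₂ l, Sim6 γ ε ν₁ ν₂ l φ := by
  obtain ⟨δ, -, ε, ν₁, ν₂, l, h1⟩ := h.sim φ hφ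
  rw [hγ.unique h1.semi]
  exact ⟨_, _, _, _, h1⟩

theorem Dat6.exists_Z6 (h : Dat6 Γ Φ) (hφ : φ ∈ Φ) (hφ' : φ' ∈ Φ) (hγ : Semi γ φ)
    (hγ' : Semi γ φ') : ∃ z ∈ Z6 A B C, φ' = z * φ := by
  refine ⟨φ' * φ⁻¹, h.lin _ (Φ.mul_mem hφ' (Φ.inv_mem hφ)) ?_, by simp⟩
  have h1 := hγ'.mul hγ.inv
  rwa [mul_inv_cancel] at h1

theorem Dat6.res (h : Dat6 Γ Φ) (hle : Γ' ≤ Γ) : Dat6 Γ' (res Φ Γ') where
  ov := h.ov.res hle
  sim φ hφ := by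
    obtain ⟨h1, γ, h2, h3⟩ := hφ
    exact ⟨γ, h2, h.sim_of h1 h3⟩
  lin φ hφ := h.lin φ hφ.1
  sat z hz := ⟨h.sat hz, 1, Γ'.one_mem, semi_Z6 hz⟩

variable {ψ : V6 A' B' C' ≃ V6 A B C} {ν₁ ν₂ l : F}

theorem Sim6.tr (hψ : Sim6 id false ν₁ ν₂ l ψ) {φ : Perm (V6 A' B' C')} {ε ν₁' ν₂' l'}
    (h : Sim6 γ ε ν₁' ν₂' l' (ψ.permCongr φ)) : ∃ ν₁'' ν₂'' l'', Sim6 γ ε ν₁'' ν₂'' l'' φ := by
  have h1 := (((sim6_one.2 hψ).symm.comp h).comp (sim6_one.2 hψ)).cast (γ' := γ) (ε' := ε)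
    (by simp) (by simp) rfl rfl rfl
  have h2 : (ψ.symm ∘ ψ.permCongr φ) ∘ ψ = φ := funext fun x => by simp
  rw [h2] at h1
  exact ⟨_, _, _, h1⟩

theorem Dat6.tr (h : Dat6 Γ Φ) (hψ : Sim6 id false ν₁ ν₂ l ψ) : Dat6 Γ (tr ψ Φ) where
  ov := h.ov.tr hψ.semi
  sim φ hφ := by
    obtain ⟨γ, h1, ε, _, _, _, h2⟩ := h.sim _ hφ
    exact ⟨γ, h1, ε, hψ.tr h2⟩
  lin φ hφ h1 := by
    rw [← congr_symm ψ φ]
    exact (sim6_one.2 hψ).symm.conj_Z6 (h.lin _ hφ ((semi_congr (γ := 1) hψ.semi).2 h1))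
  sat z hz := h.sat ((sim6_one.2 hψ).conj_Z6 hz)

theorem uiso_tr6 (hψ : Sim6 id false ν₁ ν₂ l ψ) (Φ : Subgroup (Perm (V6 A B C))) :
    UIso (Pts (S6 A' B' C') (tr ψ Φ)) (Pts (S6 A B C) Φ) :=
  uiso_tr (semi_one.2 hψ.semi).sub fun g => ⟨(sim6_one.2 hψ).conj_S6, fun hg => by
    rw [← congr_symm ψ g]
    exact (sim6_one.2 hψ).symm.conj_S6 hg⟩

/-- The transport of an inner form is inner. -/
theorem Dat6.tr_inner (h : Dat6 Γ Φ) (hψ : Sim6 id false ν₁ ν₂ l ψ) :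
    (∀ φ ∈ Cl.tr ψ Φ, ∀ x, (φ (x, 0)).2 = 0) ↔ ∀ φ ∈ Φ, ∀ x, (φ (x, 0)).2 = 0 := by
  have h1 : ∀ φ ∈ Cl.tr ψ Φ, (∀ x, (φ (x, 0)).2 = 0) ↔ ∀ x, (ψ.permCongr φ (x, 0)).2 = 0 := by
    intro φ hφ
    obtain ⟨_, _, ε, _, _, _, h2⟩ := h.sim _ hφ
    obtain ⟨_, _, _, h3⟩ := hψ.tr h2
    exact h3.inner_iff.trans h2.inner_iff.symm
  refine ⟨fun h2 φ hφ => ?_, fun h2 φ hφ => (h1 φ hφ).2 (h2 _ hφ)⟩
  have h3 := (h1 _ (symm_mem_tr.2 hφ)).1 (h2 _ (symm_mem_tr.2 hφ))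
  rwa [← Equiv.permCongr_symm, Equiv.apply_symm_apply] at h3

end dat

section lift

variable {F F' : Type} [Field F] [Field F'] {A B C A₂ B₂ C₂ : Fˣ} {A' B' C' A₂' B₂' C₂' : F'ˣ}
  [CharZero F] [CharZero F'] {ι : F →+* F'} {γ : Gl F} {γ' : Gl F'} {ε : Bool}
  {ν₁ ν₂ l : F} {φ : V6 A B C → V6 A₂ B₂ C₂} {φ' : V6 A' B' C' → V6 A₂' B₂' C₂'}

theorem Sim6.up (h : Sim6 γ ε ν₁ ν₂ l φ) (hP : Par ι A B C A' B' C')
    (hP₂ : Par ι A₂ B₂ C₂ A₂' B₂' C₂') (hs : Semi γ' φ') (hγ : ∀ x, γ' (ι x) = ι (γ x))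
    (hj : ∀ x, φ' (j6 ι x) = j6 ι (φ x)) : Sim6 γ' ε (ι ν₁) (ι ν₂) (ι l) φ' where
  semi := hs
  c1 y := by
    have h1 := (bc_j6 ι (A := A) (B := B) (C := C)).pf_ext (PF.semi PM.id.fst.acub hs)
      (PF.mul (PF.const (γ'.symm (ι ν₁))) (PM.acub (f := fun x => if ε then x.2 else x.1)
        (by cases ε; exacts [PM.id.fst, PM.id.snd]))) (fun x => by
        rw [hj, j6, cub_jA hP₂, h.c1, map_mul, map_mul, ← hγ, γ'.symm_apply_apply, ← cub_jA hP]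
        cases ε <;> rfl) y
    rw [γ'.symm_apply_eq, map_mul, γ'.apply_symm_apply] at h1
    exact h1
  c2 y := by
    have h1 := (bc_j6 ι (A := A) (B := B) (C := C)).pf_ext (PF.semi PM.id.snd.acub hs)
      (PF.mul (PF.const (γ'.symm (ι ν₂))) (PM.acub (f := fun x => if ε then x.1 else x.2)
        (by cases ε; exacts [PM.id.snd, PM.id.fst]))) (fun x => by
        rw [hj, j6, cub_jA hP₂, h.c2, map_mul, map_mul, ← hγ, γ'.symm_apply_apply, ← cub_jA hP]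
        cases ε <;> rfl) y
    rw [γ'.symm_apply_eq, map_mul, γ'.apply_symm_apply] at h1
    exact h1
  tf y := by
    have h1 := (bc_j6 ι (A := A) (B := B) (C := C)).pf_ext
      (PF.semi (PM.id.fst.atf PM.id.snd) hs)
      (PF.mul (PF.const (γ'.symm (ι l))) (PM.id.fst.atf PM.id.snd)) (fun x => by
        rw [hj, j6, j6, tf_jA hP₂, tf_jA hP, h.tf, map_mul, map_mul, ← hγ,
          γ'.symm_apply_apply]) y
    rw [γ'.symm_apply_eq, map_mul, γ'.apply_symm_apply] at h1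
    exact h1
  ne := ⟨(map_ne_zero ι).2 h.ne.1, (map_ne_zero ι).2 h.ne.2.1, (map_ne_zero ι).2 h.ne.2.2⟩

theorem Sim6.down (h : Sim6 γ' ε (ι ν₁) (ι ν₂) (ι l) φ') (hP : Par ι A B C A' B' C')
    (hP₂ : Par ι A₂ B₂ C₂ A₂' B₂' C₂') (hs : Semi γ φ) (hγ : ∀ x, γ' (ι x) = ι (γ x))
    (hj : ∀ x, φ' (j6 ι x) = j6 ι (φ x)) : Sim6 γ ε ν₁ ν₂ l φ where
  semi := hs
  c1 x := ι.injective (by
    have h1 := h.c1 (j6 ι x)
    rw [hj, j6, cub_jA hP₂] at h1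
    rw [h1, map_mul, ← hγ, ← cub_jA hP]
    cases ε <;> rfl)
  c2 x := ι.injective (by
    have h1 := h.c2 (j6 ι x)
    rw [hj, j6, cub_jA hP₂] at h1
    rw [h1, map_mul, ← hγ, ← cub_jA hP]
    cases ε <;> rfl)
  tf x := ι.injective (by
    have h1 := h.tf (j6 ι x)
    rwa [hj, j6, j6, tf_jA hP₂, tf_jA hP, hγ, ← map_mul] at h1)
  ne := ⟨(map_ne_zero ι).1 h.ne.1, (map_ne_zero ι).1 h.ne.2.1, (map_ne_zero ι).1 h.ne.2.2⟩

variable {Γ : Subgroup (Gl F)} {Γ' : Subgroup (Gl F')} {Φ : Subgroup (Perm (V6 A B C))}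
  {Φ' : Subgroup (Perm (V6 A' B' C'))}

theorem Lifts.uiso6 (hL : Lifts ι (j6 ι) Γ' Φ (Z6 A' B' C') Φ') (hE : Ext ι Γ Γ')
    (hP : Par ι A B C A' B' C') (hΦ : Over Γ Φ) :
    UIso (Pts (S6 A B C) Φ) (Pts (S6 A' B' C') Φ') := by
  refine hL.uiso hE (bc_j6 ι) hΦ (fun g hg => (mem_S6.1 hg).semi) (fun g hg => (mem_S6.1 hg).semi)
    (fun g g' h1 h2 h3 => ?_) fun z hz => ⟨semi_Z6 hz, fun g => comm_Z6_S6 hz⟩
  rw [mem_S6, mem_S6]
  refine ⟨fun h => ((sim6_one.2 h).up (γ' := 1) hP hP h2 (fun _ => rfl) h3).cast rfl rfl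
    (map_one ι) (map_one ι) (map_one ι), fun h => ?_⟩
  exact ((sim6_one.2 h).cast rfl rfl (map_one ι).symm (map_one ι).symm (map_one ι).symm).down
    (γ := 1) hP hP h1 (fun _ => rfl) h3

/-- **Extension of the field.** -/
theorem Dat6.exists_lift (h : Dat6 Γ Φ) (hE : Ext ι Γ Γ') (hP : Par ι A B C A' B' C') :
    ∃ Φ' : Subgroup (Perm (V6 A' B' C')), Dat6 Γ' Φ' ∧ Lifts ι (j6 ι) Γ' Φ (Z6 A' B' C') Φ' ∧
      ∀ φ', φ' ∈ Φ' ↔ IsLift (j6 ι) Γ' Φ (Z6 A' B' C') φ' := by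
  have h1 : ∀ φ ∈ Φ, ∀ (φ' : Perm (V6 A' B' C')) (γ' : Gl F'), Semi γ' φ' →
      (∀ x, φ' (j6 ι x) = j6 ι (φ x)) → ∃ ε ν₁ ν₂ l, Sim6 γ' ε ν₁ ν₂ l φ' := by
    intro φ hφ φ' γ' h1 h2
    obtain ⟨γ, -, ε, _, _, _, h3⟩ := h.sim φ hφ
    exact ⟨ε, _, _, _, h3.up hP hP h1 ((bc_j6 ι).over (bc_j6 ι) h3.semi h1 h2) h2⟩
  obtain ⟨Φ', h2, h3, h4, h5⟩ := exists_lifts hE (bc_j6 ι) h.ov (fun z => semi_Z6)
    fun φ hφ φ' γ' k1 k2 z hz => by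
      obtain ⟨_, _, _, _, k3⟩ := h1 φ hφ φ' γ' k1 k2
      exact k3.conj_Z6 hz
  have h6 : ∀ {φ' z : Perm (V6 A' B' C')} {γ' : Gl F'}, Semi γ' φ' → z ∈ Z6 A' B' C' →
      Semi γ' ⇑(z⁻¹ * φ') := fun {φ' z γ'} k1 k2 =>
    Semi.lin_comp (f := φ') (semi_Z6 ((Z6 A' B' C').inv_mem k2)) k1
  refine ⟨Φ', ⟨h4, fun φ' hφ' => ?_, fun φ' hφ' k0 => ?_, h5⟩, h3, h2⟩
  · obtain ⟨⟨γ', k1, k2⟩, φ, k3, z, k4, k5⟩ := (h2 φ').1 hφ'
    obtain ⟨ε, _, _, _, k6⟩ := h1 φ k3 (z⁻¹ * φ') γ' (h6 k2 k4) fun x => by simp [k5]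
    obtain ⟨_, _, _, k7⟩ := sim6_Z6 k4
    have k8 := ((sim6_one.2 k7).comp k6).cast (one_mul _) rfl rfl rfl rfl
    rw [← Perm.coe_mul, mul_inv_cancel_left] at k8
    exact ⟨γ', k1, _, _, _, _, k8⟩
  · obtain ⟨-, φ, k3, z, k4, k5⟩ := (h2 φ').1 hφ'
    have k6 : ∀ x, (z⁻¹ * φ') (j6 ι x) = j6 ι (φ x) := fun x => by simp [k5]
    have k7 := h6 (semi_one.2 k0) k4
    obtain ⟨γ, -, k8⟩ := h.ov.semi φ k3
    have k9 : γ = 1 := over_unique ((bc_j6 ι).over (bc_j6 ι) k8 k7 k6) fun _ => rfl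
    subst k9
    obtain ⟨s, t, hl⟩ := mem_Z6.1 (h.lin φ k3 k8)
    have k10 : z⁻¹ * φ' = zs6 (ι s) (ι t) ((map_ne_zero ι).2 (ne_of_scal6 hl).1)
        ((map_ne_zero ι).2 (ne_of_scal6 hl).2) :=
      Equiv.ext ((bc_j6 ι (A := A) (B := B) (C := C)).ext k7 (semi_Z6 (zs6_mem _ _ _ _))
        fun x => by
          rw [k6, hl, j6, jA_smul, jA_smul]
          rfl)
    rw [inv_mul_eq_iff_eq_mul] at k10
    rw [k10]
    exact (Z6 A' B' C').mul_mem k4 (zs6_mem _ _ _ _)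

/-- An element and its extension are both inner or both outer. -/
theorem lift_inner (h : Dat6 Γ Φ) (h' : Dat6 Γ' Φ') (hP : Par ι A B C A' B' C')
    {φ : Perm (V6 A B C)} {φ' z : Perm (V6 A' B' C')} (hφ : φ ∈ Φ) (hφ' : φ' ∈ Φ')
    (hz : z ∈ Z6 A' B' C') (hj : ∀ x, φ' (j6 ι x) = z (j6 ι (φ x))) :
    (∀ x, (φ' (x, 0)).2 = 0) ↔ ∀ x, (φ (x, 0)).2 = 0 := by
  obtain ⟨γ, -, ε, _, _, _, k7⟩ := h.sim φ hφ
  obtain ⟨γ', -, ε', _, _, _, k8⟩ := h'.sim φ' hφ'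
  obtain ⟨_, _, _, k9⟩ := sim6_Z6 ((Z6 A' B' C').inv_mem hz)
  have k10 := (sim6_one.2 k9).comp k8
  rw [← Perm.coe_mul, one_mul, Bool.false_xor] at k10
  have k11 : ∀ x, (z⁻¹ * φ') (j6 ι x) = j6 ι (φ x) := fun x => by simp [hj]
  rw [k7.inner_iff, k8.inner_iff,
    k10.eps_eq (k7.up hP hP k10.semi ((bc_j6 ι).over (bc_j6 ι) k7.semi k10.semi k11) k11)]

theorem Lifts.inner_iff (hL : Lifts ι (j6 ι) Γ' Φ (Z6 A' B' C') Φ') (h : Dat6 Γ Φ)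
    (h' : Dat6 Γ' Φ') (hE : Ext ι Γ Γ') (hP : Par ι A B C A' B' C') :
    (∀ φ' ∈ Φ', ∀ x, (φ' (x, 0)).2 = 0) ↔ ∀ φ ∈ Φ, ∀ x, (φ (x, 0)).2 = 0 := by
  refine ⟨fun h1 φ hφ => ?_, fun h1 φ' hφ' => ?_⟩
  · obtain ⟨γ, k1, k2⟩ := h.ov.semi φ hφ
    obtain ⟨γ', k3, k4⟩ := hE.up γ k1
    obtain ⟨φ', k5, -, z, k6, k7⟩ := hL.up φ hφ γ k2 γ' k3 k4
    exact (lift_inner h h' hP hφ k5 k6 k7).1 (h1 φ' k5)
  · obtain ⟨-, φ, k1, z, k2, k3⟩ := hL.down φ' hφ'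
    exact (lift_inner h h' hP k1 hφ' k2 k3).2 (h1 φ k1)

end lift

end Vale.Agent.P011N.Cl
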