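import Vale.Agent.P011N.Cl.T.BC

/-!
Tools: octonions, polynomial maps and extension of the field.
-/

namespace Vale.Agent.P011N.Cl

open Vale.Agent.P011.MPQ Vale.Agent.P011.D4 Vale.Agent.P011.D4.Oct Equiv Module

section bc

variable {F F' V V' W W' : Type} [Field F] [Field F'] [AddCommGroup V]
  [Module F V] [AddCommGroup V'] [Module F' V'] [AddCommGroup W] [Module F W] [AddCommGroup W']
  [Module F' W'] {ι : F →+* F'} {j : V → V'} {j₂ : W → W'}

theorem BC.of_basis {κ : Type} [Fintype κ] (h1 : ∀ x y, j (x + y) = j x + j y)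
    (h2 : ∀ (t : F) x, j (t • x) = ι t • j x) (b : Basis κ F V) (b' : Basis κ F' V')
    (hb : ∀ i, b' i = j (b i)) : BC ι j :=
  ⟨h1, h2, Fintype.card κ, b.reindex (Fintype.equivFin κ), b'.reindex (Fintype.equivFin κ),
    fun i => by rw [Basis.reindex_apply, Basis.reindex_apply, hb]⟩

theorem bc_self (ι : F →+* F') : BC ι (ι : F → F') :=
  BC.of_basis (map_add ι) (map_mul ι) (Basis.singleton Unit F) (Basis.singleton Unit F')
    fun i => by simp

theorem BC.pi (h : BC ι j) (κ : Type) [Fintype κ] : BC ι fun (x : κ → V) i => j (x i) := by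
  classical
  obtain ⟨n, b, b', hb⟩ := h.bas
  have h0 : j 0 = 0 := by simpa using h.smul 0 0
  refine BC.of_basis (fun x y => funext fun i => h.add _ _) (fun t x => funext fun i => h.smul _ _)
    (Pi.basis fun _ => b) (Pi.basis fun _ => b') fun i => ?_
  rw [Pi.basis_apply, Pi.basis_apply, hb]
  funext l
  exact (Pi.apply_single (fun _ => j) (fun _ => h0) _ _ l).symm

theorem BC.prod (h : BC ι j) (h₂ : BC ι j₂) : BC ι fun x : V × W => (j x.1, j₂ x.2) := by
  obtain ⟨n, b, b', hb⟩ := h.bas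
  obtain ⟨m, c, c', hc⟩ := h₂.bas
  have h0 : j 0 = 0 := by simpa using h.smul 0 0
  have h0' : j₂ 0 = 0 := by simpa using h₂.smul 0 0
  refine BC.of_basis (fun x y => Prod.ext (h.add _ _) (h₂.add _ _))
    (fun t x => Prod.ext (h.smul _ _) (h₂.smul _ _)) (b.prod c) (b'.prod c') ?_
  rintro (i | i) <;> simp [hb, hc, h0, h0']

theorem BC.congr (h : BC ι j) (e : W ≃ₗ[F] V) (e' : W' ≃ₗ[F'] V') (he : ∀ x, e' (j₂ x) = j (e x)) :
    BC ι j₂ := by
  obtain ⟨n, b, b', hb⟩ := h.bas
  refine ⟨fun x y => e'.injective ?_, fun t x => e'.injective ?_, n, b.map e.symm, b'.map e'.symm,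
    fun i => e'.injective ?_⟩
  · rw [he, map_add, map_add, h.add, he, he]
  · rw [he, map_smul, map_smul, h.smul, he]
  · simp [he, hb]

end bc

section oct

variable {F F' : Type} [Field F] [Field F'] {A B C : Fˣ} {A' B' C' : F'ˣ}

/-- The coordinates of an octonion. -/
def co8 (A B C : Fˣ) : Oct A B C ≃ₗ[F] (Fin 8 → F) where
  toFun x := ![x.fst.re, x.fst.imI, x.fst.imJ, x.fst.imK, x.snd.re, x.snd.imI, x.snd.imJ, x.snd.imK]
  invFun v := ⟨⟨v 0, v 1, v 2, v 3⟩, ⟨v 4, v 5, v 6, v 7⟩⟩
  left_inv _ := rfl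
  right_inv v := by
    funext m
    fin_cases m <;> rfl
  map_add' x y := by
    funext m
    fin_cases m <;> rfl
  map_smul' t x := by
    funext m
    fin_cases m <;> rfl

theorem co8_jO (ι : F → F') (x : Oct A B C) (i : Fin 8) :
    co8 A' B' C' (jO ι x) i = ι (co8 A B C x i) := by
  fin_cases i <;> rfl

theorem bc_jO (ι : F →+* F') : BC ι (jO ι : Oct A B C → Oct A' B' C') :=
  ((bc_self ι).pi (Fin 8)).congr (co8 A B C) (co8 A' B' C') fun x => funext (co8_jO ι x)

theorem jO_jO {F'' : Type} [Field F''] {A'' B'' C'' : F''ˣ} (f : F' → F'') (g : F → F')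
    (x : Oct A B C) : (jO f (jO g x : Oct A' B' C') : Oct A'' B'' C'') = jO (f ∘ g) x := rfl

theorem jO_id (x : Oct A B C) : (jO id x : Oct A B C) = x := rfl

theorem jO_congr {f g : F → F'} (h : ∀ t, f t = g t) (x : Oct A B C) :
    (jO f x : Oct A' B' C') = jO g x := by rw [funext h]

theorem oct_one_ne : (1 : Oct A B C) ≠ 0 := fun h =>
  one_ne_zero (congrArg (fun x : Oct A B C => x.fst.re) h)

instance : Nontrivial (Oct A B C) := ⟨1, 0, oct_one_ne⟩

section hom

variable {R : Type} [FunLike R F F'] [RingHomClass R F F'] (ι : R)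

theorem jO_add (x y : Oct A B C) : (jO ι (x + y) : Oct A' B' C') = jO ι x + jO ι y := by
  apply ext8 <;> exact map_add ι _ _

theorem jO_smul (t : F) (x : Oct A B C) : (jO ι (t • x) : Oct A' B' C') = ι t • jO ι x := by
  apply ext8 <;> exact map_mul ι _ _

theorem jO_zero : (jO ι (0 : Oct A B C) : Oct A' B' C') = 0 := by
  apply ext8 <;> exact map_zero ι

theorem jO_one : (jO ι (1 : Oct A B C) : Oct A' B' C') = 1 := by
  apply ext8 <;> first | exact map_zero ι | exact map_one ι

theorem jO_neg (x : Oct A B C) : (jO ι (-x) : Oct A' B' C') = -jO ι x := by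
  apply ext8 <;> exact map_neg ι _

theorem jO_sub (x y : Oct A B C) : (jO ι (x - y) : Oct A' B' C') = jO ι x - jO ι y := by
  apply ext8 <;> exact map_sub ι _ _

theorem jO_star (x : Oct A B C) : (jO ι (star x) : Oct A' B' C') = star (jO ι x) := by
  apply ext8 <;> simp [jO, jQ]

variable {ι}

/-- The parameters correspond to each other. -/
def Par (ι : F → F') (A B C : Fˣ) (A' B' C' : F'ˣ) : Prop :=
  ι A = A' ∧ ι B = B' ∧ ι C = C'

theorem jQ_mul (hA : ι A = A') (hB : ι B = B') (x y : Qt A B) :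
    (jQ ι (x * y) : Qt A' B') = jQ ι x * jQ ι y := by
  apply QuaternionAlgebra.ext <;>
    simp only [jQ, QuaternionAlgebra.re_mul, QuaternionAlgebra.imI_mul, QuaternionAlgebra.imJ_mul,
      QuaternionAlgebra.imK_mul, map_add, map_sub, map_mul, map_zero, hA, hB]

variable (ι) in
theorem jQ_add (x y : Qt A B) : (jQ ι (x + y) : Qt A' B') = jQ ι x + jQ ι y := by
  apply QuaternionAlgebra.ext <;> exact map_add ι _ _

variable (ι) in
theorem jQ_smul (t : F) (x : Qt A B) : (jQ ι (t • x) : Qt A' B') = ι t • jQ ι x := by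
  apply QuaternionAlgebra.ext <;> exact map_mul ι _ _

variable (ι) in
theorem jQ_star (x : Qt A B) : (jQ ι (star x) : Qt A' B') = star (jQ ι x) := by
  apply QuaternionAlgebra.ext <;> simp [jQ]

theorem nrd_jQ (hA : ι A = A') (hB : ι B = B') (x : Qt A B) :
    nrd (jQ ι x : Qt A' B') = ι (nrd x) := by
  simp only [jQ, nrd, map_add, map_sub, map_mul, map_pow, hA, hB]

theorem jO_mul (h : Par ι A B C A' B' C') (x y : Oct A B C) :
    (jO ι (x * y) : Oct A' B' C') = jO ι x * jO ι y := by
  ext1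
  · simp only [jO, fst_mul, jQ_add, jQ_smul, jQ_mul h.1 h.2.1, jQ_star, h.2.2]
  · simp only [jO, snd_mul, jQ_add, jQ_mul h.1 h.2.1, jQ_star]

theorem norm_jO (h : Par ι A B C A' B' C') (x : Oct A B C) :
    norm (jO ι x : Oct A' B' C') = ι (norm x) := by
  simp only [jO, Oct.norm, nrd_jQ h.1 h.2.1, map_sub, map_mul, h.2.2]

theorem bil_jO (h : Par ι A B C A' B' C') (x y : Oct A B C) :
    bil (jO ι x : Oct A' B' C') (jO ι y) = ι (bil x y) := by
  rw [bil, bil, ← jO_add, norm_jO h, norm_jO h, norm_jO h, map_sub, map_sub]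

theorem par_one : Par ι 1 1 1 1 1 1 := ⟨map_one ι, map_one ι, map_one ι⟩

end hom

/-- The polar form of the norm. -/
def bilL (A B C : Fˣ) : Oct A B C →ₗ[F] Oct A B C →ₗ[F] F :=
  LinearMap.mk₂ F bil bil_add_left bil_smul_left bil_add_right fun t x y => bil_smul_right t x y

theorem bilL_apply (x y : Oct A B C) : bilL A B C x y = bil x y := rfl

/-- The conjugation. -/
def starL (A B C : Fˣ) : Oct A B C ≃ₗ[F] Oct A B C where
  toFun := star
  invFun := star
  left_inv := star_star
  right_inv := star_star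
  map_add' := star_add
  map_smul' := star_smul_oct

variable {U : Type} [AddCommGroup U] [Module F U] {f g : U → Oct A B C}

theorem PM.obil (hf : PM F f) (hg : PM F g) : (fun x => bil (f x) (g x)) ∈ PF F U :=
  (PM.bilin (bilL A B C) hf hg).pf

theorem PM.omul (hf : PM F f) (hg : PM F g) : PM F fun x => f x * g x :=
  PM.bilin (LinearMap.mul F (Oct A B C)) hf hg

theorem PM.ostar (hf : PM F f) : PM F fun x => star (f x) := hf.map (starL A B C).toLinearMap

theorem PM.onorm [CharZero F] (hf : PM F f) : (fun x => norm (f x)) ∈ PF F U := by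
  have h := PF.mul (PF.const (2⁻¹ : F)) (hf.obil hf)
  simpa [bil_self] using h

theorem PM.proj {κ W : Type} [AddCommGroup W] [Module F W] {f : U → κ → W} (hf : PM F f) (i : κ) :
    PM F fun x => f x i := hf.map (LinearMap.proj i)

end oct

end Vale.Agent.P011N.Cl
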