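import Vale.Agent.P011N.Cl.Defs

/-!
Tools: semilinear maps and Galois descent.
-/

namespace Vale.Agent.P011N.Cl

open Equiv

section semi

variable {F V W U : Type} [Field F] [CharZero F] [AddCommGroup V] [Module F V] [AddCommGroup W]
  [Module F W] [AddCommGroup U] [Module F U] {γ δ : Gl F} {f : V → W}

theorem semi_one : Semi (⇑(1 : Gl F)) f ↔ Semi (id : F → F) f := Iff.rfl

theorem Semi.zero (h : Semi γ f) : f 0 = 0 := by
  have h1 := h 1 0 0
  rw [smul_zero, add_zero, map_one, one_smul] at h1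
  exact left_eq_add.1 h1

theorem Semi.add (h : Semi γ f) (x y : V) : f (x + y) = f x + f y := by
  have h1 := h 1 x y
  rwa [one_smul, map_one, one_smul] at h1

theorem Semi.smul (h : Semi γ f) (t : F) (x : V) : f (t • x) = γ t • f x := by
  have h1 := h t x 0
  rwa [add_zero, h.zero, add_zero] at h1

theorem Semi.neg (h : Semi γ f) (x : V) : f (-x) = -f x := by
  rw [← neg_one_smul F x, h.smul, map_neg, map_one, neg_one_smul]

theorem Semi.sub (h : Semi γ f) (x y : V) : f (x - y) = f x - f y := by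
  rw [sub_eq_add_neg, h.add, h.neg, sub_eq_add_neg]

/-- The additive homomorphism of a semilinear map. -/
def Semi.hom (h : Semi γ f) : V →+ W := AddMonoidHom.mk' f h.add

theorem Semi.sum (h : Semi γ f) {ι : Type} (s : Finset ι) (x : ι → V) :
    f (∑ i ∈ s, x i) = ∑ i ∈ s, f (x i) := map_sum h.hom x s

theorem semi_of (h1 : ∀ x y, f (x + y) = f x + f y) (h2 : ∀ (t : F) x, f (t • x) = γ t • f x) :
    Semi γ f := fun t x y => by rw [h1, h2]

/-- The linear map of a map which is semilinear with respect to the identity. -/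
def Semi.lin (h : Semi (id : F → F) f) : V →ₗ[F] W where
  toFun := f
  map_add' := (semi_one.2 h).add
  map_smul' := (semi_one.2 h).smul

omit [CharZero F] in
theorem semi_lin (g : V →ₗ[F] W) : Semi (id : F → F) g := fun t x y => by
  rw [map_add, map_smul, id]

theorem Semi.comp {g : U → V} (h : Semi γ f) (h' : Semi δ g) : Semi (⇑(γ * δ)) (f ∘ g) :=
  fun t x y => by rw [Function.comp_apply, h', h]; rfl

theorem Semi.mul {φ ψ : Perm V} (h : Semi γ φ) (h' : Semi δ ψ) : Semi (⇑(γ * δ)) ⇑(φ * ψ) :=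
  h.comp h'

theorem Semi.symm {e : V ≃ W} (h : Semi γ e) : Semi (⇑γ⁻¹) e.symm := fun t x y => by
  apply e.injective
  rw [h, e.apply_symm_apply, e.apply_symm_apply, e.apply_symm_apply]
  congr 2
  exact (γ.apply_symm_apply t).symm

theorem Semi.inv {φ : Perm V} (h : Semi γ φ) : Semi (⇑γ⁻¹) ⇑φ⁻¹ := h.symm

theorem semi_id : Semi (⇑(1 : Gl F)) ⇑(1 : Perm V) := fun _ _ _ => rfl

theorem Semi.unique [Nontrivial V] {e : V ≃ W} (h : Semi γ e) (h' : Semi δ e) : γ = δ := by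
  obtain ⟨x, hx⟩ := exists_ne (0 : V)
  have h0 : e x ≠ 0 := fun h1 => hx (e.injective (h1.trans h.zero.symm))
  ext t
  exact smul_left_injective F h0 ((h.smul t x).symm.trans (h'.smul t x))

theorem Semi.ne_zero {e : V ≃ W} (h : Semi γ e) {x : V} (hx : x ≠ 0) : e x ≠ 0 :=
  fun h1 => hx (e.injective (h1.trans h.zero.symm))

/-- The conjugate of a semilinear map by linear maps. -/
theorem Semi.lin_comp {g : W → U} (h' : Semi (id : F → F) g) (h : Semi γ f) : Semi γ (g ∘ f) :=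
  fun t x y => by rw [Function.comp_apply, h, h']; rfl

theorem Semi.comp_lin {g : U → V} (h : Semi γ f) (h' : Semi (id : F → F) g) : Semi γ (f ∘ g) :=
  fun t x y => by rw [Function.comp_apply, h', h]; rfl

theorem Semi.symm_lin {e : V ≃ W} (h : Semi (id : F → F) e) : Semi (id : F → F) e.symm :=
  (semi_one.2 h).symm

/-- The map of the field which belongs to a semilinear bijection is an automorphism. -/
theorem exists_gl {F V : Type} [Field F] [NumberField F] [AddCommGroup V] [Module F V]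
    [Nontrivial V] {g : F → F} {e : Perm V} (h : Semi g e) : ∃ γ : Gl F, ⇑γ = g := by
  obtain ⟨x, hx⟩ := exists_ne (0 : V)
  have h0 : e 0 = 0 := by
    by_contra h1
    have h2 : g 1 = 0 := by
      have h3 := h 1 0 0
      rw [smul_zero, add_zero, right_eq_add] at h3
      exact (smul_eq_zero.1 h3).resolve_right h1
    have h3 := h 1 x 0
    rw [h2, zero_smul, zero_add, one_smul, add_zero] at h3
    exact hx (e.injective h3)
  have h1 : e x ≠ 0 := fun h1 => hx (e.injective (h1.trans h0.symm))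
  have h2 : ∀ (t : F) y, e (t • y) = g t • e y := fun t y => by
    have h3 := h t y 0
    rwa [add_zero, h0, add_zero] at h3
  have h3 : g 1 = 1 := smul_left_injective F h1 (by
    change g 1 • e x = (1 : F) • e x
    rw [← h2, one_smul, one_smul])
  let r : F →+* F :=
    { toFun := g
      map_one' := h3
      map_mul' := fun s t => smul_left_injective F h1 (by
        change g (s * t) • e x = (g s * g t) • e x
        rw [← h2, mul_smul, mul_smul, h2, h2])
      map_zero' := smul_left_injective F h1 (by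
        change g 0 • e x = (0 : F) • e x
        rw [← h2, zero_smul, zero_smul, h0])
      map_add' := fun s t => smul_left_injective F h1 (by
        change g (s + t) • e x = (g s + g t) • e x
        rw [← h2, add_smul, add_smul, h, h2]) }
  exact ⟨AlgEquiv.ofBijective r.toRatAlgHom (Algebra.IsAlgebraic.algHom_bijective _), rfl⟩

end semi

section res

variable {F V : Type} [Field F] [CharZero F] [AddCommGroup V] [Module F V]
  {Γ Γ' : Subgroup (Gl F)} {Φ : Subgroup (Perm V)}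

/-- The elements of `Φ` over `Γ'`. -/
def res (Φ : Subgroup (Perm V)) (Γ' : Subgroup (Gl F)) : Subgroup (Perm V) where
  carrier := {φ | φ ∈ Φ ∧ ∃ γ ∈ Γ', Semi γ φ}
  mul_mem' := by
    rintro φ ψ ⟨h1, γ, h2, h3⟩ ⟨k1, δ, k2, k3⟩
    exact ⟨Φ.mul_mem h1 k1, γ * δ, Γ'.mul_mem h2 k2, h3.mul k3⟩
  one_mem' := ⟨Φ.one_mem, 1, Γ'.one_mem, semi_id⟩
  inv_mem' := by
    rintro φ ⟨h1, γ, h2, h3⟩
    exact ⟨Φ.inv_mem h1, γ⁻¹, Γ'.inv_mem h2, h3.inv⟩

theorem mem_res {φ : Perm V} : φ ∈ res Φ Γ' ↔ φ ∈ Φ ∧ ∃ γ ∈ Γ', Semi γ φ := Iff.rfl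

theorem res_le : res Φ Γ' ≤ Φ := fun _ h => h.1

theorem Over.res (h : Over Γ Φ) (hle : Γ' ≤ Γ) : Over Γ' (res Φ Γ') where
  semi _ hφ := hφ.2
  onto γ hγ := by
    obtain ⟨φ, h1, h2⟩ := h.onto γ (hle hγ)
    exact ⟨φ, ⟨h1, γ, hγ, h2⟩, h2⟩

theorem Over.mem [Nontrivial V] (h : Over Γ Φ) {φ : Perm V} (hφ : φ ∈ Φ) {γ : Gl F}
    (hγ : Semi γ φ) : γ ∈ Γ := by
  obtain ⟨δ, h1, h2⟩ := h.semi φ hφ
  rwa [hγ.unique h2]

/-- The stabilizer of an element of the field. -/
def stb (Γ : Subgroup (Gl F)) (d : F) : Subgroup (Gl F) := Γ ⊓ MulAction.stabilizer (Gl F) d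

theorem mem_stb {d : F} {γ : Gl F} : γ ∈ stb Γ d ↔ γ ∈ Γ ∧ γ d = d := Iff.rfl

theorem stb_le {d : F} : stb Γ d ≤ Γ := inf_le_left

theorem mem_Pts {V : Type} {S Φ : Subgroup (Perm V)} {g : Perm V} :
    g ∈ Pts S Φ ↔ g ∈ S ∧ ∀ φ ∈ Φ, φ * g = g * φ := Iff.rfl

theorem Fx.mul {a b : F} (h : Fx Γ a) (h' : Fx Γ b) : Fx Γ (a * b) := fun γ hγ => by
  rw [map_mul, h γ hγ, h' γ hγ]

theorem Fx.add {a b : F} (h : Fx Γ a) (h' : Fx Γ b) : Fx Γ (a + b) := fun γ hγ => by
  rw [map_add, h γ hγ, h' γ hγ]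

theorem Fx.neg {a : F} (h : Fx Γ a) : Fx Γ (-a) := fun γ hγ => by rw [map_neg, h γ hγ]

theorem Fx.inv {a : F} (h : Fx Γ a) : Fx Γ a⁻¹ := fun γ hγ => by rw [map_inv₀, h γ hγ]

theorem Fx.mono {a : F} (h : Fx Γ a) (hle : Γ' ≤ Γ) : Fx Γ' a := fun γ hγ => h γ (hle hγ)

theorem fx_one : Fx Γ (1 : F) := fun γ _ => map_one γ

theorem fx_iff {a : F} : Fx Γ a ↔ a ∈ IntermediateField.fixedField Γ :=
  ⟨fun h γ => h γ.1 γ.2, fun h γ hγ => h ⟨γ, hγ⟩⟩

end res

section uiso

variable {V V' V'' : Type} [AddCommGroup V] [AddCommGroup V'] [AddCommGroup V'']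
  {G : Subgroup (Perm V)} {G' : Subgroup (Perm V')} {G'' : Subgroup (Perm V'')}

theorem UIso.refl (G : Subgroup (Perm V)) : UIso G G := ⟨MulEquiv.refl _, fun _ => Iff.rfl⟩

theorem UIso.symm (h : UIso G G') : UIso G' G := by
  obtain ⟨e, he⟩ := h
  exact ⟨e.symm, fun g => by rw [he, e.apply_symm_apply]⟩

theorem UIso.trans (h : UIso G G') (h' : UIso G' G'') : UIso G G'' := by
  obtain ⟨e, he⟩ := h
  obtain ⟨e', he'⟩ := h'
  exact ⟨e.trans e', fun g => (he g).trans (he' _)⟩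

theorem UIso.ani (h : UIso G G') (hG : Ani G) : Ani G' := by
  obtain ⟨e, he⟩ := h
  intro g hg hu
  have h1 := hG (e.symm ⟨g, hg⟩).1 (e.symm ⟨g, hg⟩).2 ((he _).2 (by
    rw [e.apply_symm_apply]
    exact hu))
  have h2 : e.symm ⟨g, hg⟩ = 1 := Subtype.ext h1
  exact congrArg Subtype.val (e.symm.map_eq_one_iff.1 h2)

theorem simp_of_equiv {G H : Type} [Group G] [Group H] (e : G ≃* H) (h : Simp H) : Simp G := by
  intro N hN
  rcases h (N.comap (e.symm : H →* G)) (hN.comap _) with h1 | h1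
  · left
    intro x hx
    have h2 : e x ∈ Subgroup.center H := h1 (by simpa using hx)
    rw [Subgroup.mem_center_iff] at h2 ⊢
    intro y
    apply e.injective
    rw [map_mul, map_mul, h2]
  · right
    rw [eq_top_iff]
    intro x _
    have h2 : e x ∈ N.comap (e.symm : H →* G) := by
      rw [h1]
      trivial
    simpa using h2

theorem UIso.simp (h : UIso G G') (hG : Simp G') : Simp G := by
  obtain ⟨e, -⟩ := h
  exact simp_of_equiv e hG

theorem iter_comm {j : V → V'} (hj : ∀ x y, j (x - y) = j x - j y) {g : V → V} {g' : V' → V'}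
    (h : ∀ x, g' (j x) = j (g x)) (n : ℕ) (x : V) :
    (fun y => g' y - y)^[n] (j x) = j ((fun y => g y - y)^[n] x) := by
  induction n generalizing x with
  | zero => rfl
  | succ n ih => rw [Function.iterate_succ_apply, Function.iterate_succ_apply, h, ← hj, ih]

/-- The transport of a group of bijections. -/
def tr {V W : Type} (ψ : V ≃ W) (Φ : Subgroup (Perm W)) : Subgroup (Perm V) :=
  Φ.comap ψ.permCongrHom.toMonoidHom

theorem mem_tr {V W : Type} {ψ : V ≃ W} {Φ : Subgroup (Perm W)} {φ : Perm V} :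
    φ ∈ tr ψ Φ ↔ ψ.permCongr φ ∈ Φ := Iff.rfl

theorem symm_mem_tr {V W : Type} {ψ : V ≃ W} {Φ : Subgroup (Perm W)} {φ : Perm W} :
    ψ.symm.permCongr φ ∈ tr ψ Φ ↔ φ ∈ Φ := by
  rw [mem_tr, ← Equiv.permCongr_symm, Equiv.apply_symm_apply]

theorem uiso_tr {ψ : V ≃ V'} (hψ : ∀ x y, ψ (x - y) = ψ x - ψ y) {S : Subgroup (Perm V)}
    {S' Φ : Subgroup (Perm V')} (hS : ∀ g, g ∈ S ↔ ψ.permCongr g ∈ S') :
    UIso (Pts S (tr ψ Φ)) (Pts S' Φ) := by
  have h0 : ψ 0 = 0 := by simpa using hψ 0 0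
  have h1 : ∀ g, g ∈ Pts S (tr ψ Φ) ↔ ψ.permCongrHom g ∈ Pts S' Φ := by
    intro g
    rw [mem_Pts, mem_Pts, hS]
    refine and_congr Iff.rfl ⟨fun h φ hφ => ?_, fun h φ hφ => ?_⟩
    · have h2 := congrArg ψ.permCongrHom (h _ (symm_mem_tr.2 hφ))
      rw [map_mul, map_mul] at h2
      have h3 : ψ.permCongrHom (ψ.symm.permCongr φ) = φ := ψ.permCongr.apply_symm_apply φ
      rwa [h3] at h2
    · apply ψ.permCongrHom.injective
      rw [map_mul, map_mul]
      exact h _ hφ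
  have h2 : (Pts S (tr ψ Φ)).map ψ.permCongrHom.toMonoidHom = Pts S' Φ := by
    ext g
    constructor
    · rintro ⟨g, hg, rfl⟩
      exact (h1 g).1 hg
    · intro hg
      obtain ⟨g, rfl⟩ := ψ.permCongrHom.surjective g
      exact ⟨g, (h1 g).2 hg, rfl⟩
  refine ⟨(ψ.permCongrHom.subgroupMap _).trans (MulEquiv.subgroupCongr h2), fun g => ?_⟩
  have h3 : ∀ x, ψ.permCongr g.1 (ψ x) = ψ (g.1 x) := fun x => by simp
  refine exists_congr fun n => ⟨fun h x => ?_, fun h x => ψ.injective ?_⟩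
  · obtain ⟨x, rfl⟩ := ψ.surjective x
    exact (iter_comm hψ h3 n x).trans (by rw [h, h0])
  · rw [← iter_comm hψ h3, h0]
    exact h _

end uiso

section desc

variable {F V : Type} [Field F] [NumberField F] [AddCommGroup V] [Module F V]
  {Γ : Subgroup (Gl F)}

/-- **Galois descent**: the fixed vectors of a semilinear action span the space. -/
theorem span_fixed (a : Gl F → V → V) (hs : ∀ γ ∈ Γ, Semi γ (a γ))
    (hm : ∀ γ ∈ Γ, ∀ δ ∈ Γ, ∀ x, a (γ * δ) x = a γ (a δ x)) (h1 : ∀ x, a 1 x = x) :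
    Submodule.span F {x | ∀ γ ∈ Γ, a γ x = x} = ⊤ := by
  classical
  by_contra hne
  obtain ⟨l, hl0, hl⟩ := Submodule.exists_le_ker_of_lt_top _ (lt_top_iff_ne_top.2 hne)
  apply hl0
  ext x
  have hli : LinearIndependent F fun γ : Γ => ((γ.1 : F →* F) : F → F) :=
    (linearIndependent_monoidHom F F).comp (fun γ : Γ => (γ.1 : F →* F)) fun γ δ h =>
      Subtype.ext (AlgEquiv.ext fun t => DFunLike.congr_fun h t)
  have h2 : ∑ γ : Γ, l (a γ.1 x) • ((γ.1 : F →* F) : F → F) = 0 := by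
    funext t
    have h3 : (∑ γ : Γ, a γ.1 (t • x)) ∈ {x | ∀ γ ∈ Γ, a γ x = x} := by
      intro δ hδ
      rw [(hs δ hδ).sum]
      exact Fintype.sum_equiv (Equiv.mulLeft (⟨δ, hδ⟩ : Γ)) _ _
        fun γ => (hm δ hδ γ.1 γ.2 _).symm
    have h4 := hl (Submodule.subset_span h3)
    rw [LinearMap.mem_ker, map_sum] at h4
    rw [Finset.sum_apply, Pi.zero_apply, ← h4]
    refine Finset.sum_congr rfl fun γ _ => ?_
    rw [(hs γ.1 γ.2).smul, map_smul, smul_eq_mul, Pi.smul_apply, smul_eq_mul, mul_comm]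
    rfl
  have h5 := Fintype.linearIndependent_iff.1 hli _ h2 1
  rwa [OneMemClass.coe_one, h1] at h5

/-- **Hilbert's theorem 90.** -/
theorem h90 (c : Gl F → F) (h1 : c 1 = 1)
    (hm : ∀ γ ∈ Γ, ∀ δ ∈ Γ, c (γ * δ) = c γ * γ (c δ)) :
    ∃ b : F, b ≠ 0 ∧ ∀ γ ∈ Γ, c γ * γ b = b := by
  have h := span_fixed (Γ := Γ) (fun γ x => c γ * γ x)
    (fun γ _ t x y => by simp only [smul_eq_mul, map_add, map_mul]; ring)
    (fun γ hγ δ hδ x => by rw [hm γ hγ δ hδ, map_mul, mul_assoc]; rfl)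
    (fun x => by rw [h1, one_mul]; rfl)
  by_contra hcon
  push Not at hcon
  have h2 : {x : F | ∀ γ ∈ Γ, c γ * γ x = x} ⊆ {0} := fun x hx => by
    by_contra h3
    obtain ⟨γ, h4, h5⟩ := hcon x h3
    exact h5 (hx γ h4)
  have h3 := Submodule.span_mono (R := F) h2
  rw [h, Submodule.span_zero_singleton] at h3
  exact one_ne_zero ((Submodule.mem_bot F).1 (h3 (Submodule.mem_top (x := (1 : F)))))

end desc

end Vale.Agent.P011N.Cl
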