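import Vale.Agent.P011N.Cl.T.Split

/-!
Tools: units of the composition, and the maps which fix the lines of the unit.
-/

namespace Vale.Agent.P011N.Cl

open Vale.Agent.P011.MPQ Vale.Agent.P011.D4 Vale.Agent.P011.D4.Oct Equiv Module

section tm

variable {F : Type} [Field F] {A B C A' B' C' : Fˣ}

/-- Left multiplication. -/
def lm (a : Oct A B C) (ha : norm a ≠ 0) : Perm (Oct A B C) where
  toFun x := a * x
  invFun x := (norm a)⁻¹ • (star a * x)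
  left_inv x := by simp only [star_mul_mul, inv_smul_smul₀ ha]
  right_inv x := by simp only [mul_smul_comm, mul_star_mul, inv_smul_smul₀ ha]

/-- Right multiplication. -/
def rm (a : Oct A B C) (ha : norm a ≠ 0) : Perm (Oct A B C) where
  toFun x := x * a
  invFun x := (norm a)⁻¹ • (x * star a)
  left_inv x := by simp only [mul_mul_star, inv_smul_smul₀ ha]
  right_inv x := by simp only [smul_mul_assoc, mul_star_mul', inv_smul_smul₀ ha]

theorem tr_moufang [CharZero F] (a x y z : Oct A B C) :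
    bil (a * x * (y * a) * (star a * z * star a)) 1 = norm a ^ 2 * bil (x * y * z) 1 := by
  rw [moufang, bil_mul_left', one_mul, star_mul, star_mul, star_star, ← flex, bil_mul_mul_right,
    bil_mul_mul_left, bil_mul_left' (x * y), one_mul]
  ring

/-- The related triple of an octonion. -/
def tm (k : Fin 3) (a : Oct A B C) (ha : norm a ≠ 0) : Perm (V4 A B C) :=
  Equiv.piCongrRight fun i => ![lm a ha, rm a ha,
    rm (star a) (by rwa [Oct.norm_star]) * lm (star a) (by rwa [Oct.norm_star])] (i - k)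

variable {k : Fin 3} {a : Oct A B C} {ha : norm a ≠ 0}

theorem tm_zero (x : V4 A B C) : tm k a ha x k = a * x k := by
  rw [tm, Equiv.piCongrRight_apply, Pi.map_apply, sub_self]
  rfl

theorem tm_one (x : V4 A B C) : tm k a ha x (k + 1) = x (k + 1) * a := by
  rw [tm, Equiv.piCongrRight_apply, Pi.map_apply, add_sub_cancel_left]
  rfl

theorem tm_two (x : V4 A B C) : tm k a ha x (k + 2) = star a * x (k + 2) * star a := by
  rw [tm, Equiv.piCongrRight_apply, Pi.map_apply, add_sub_cancel_left]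
  rfl

theorem fin3_cases (k i : Fin 3) : i = k ∨ i = k + 1 ∨ i = k + 2 := by
  revert k i
  decide

theorem sim4_tm [CharZero F] : ∃ μ ν, Sim4 id 1 μ ν (tm k a ha) := by
  refine ⟨fun i => if i = k + 2 then norm a ^ 2 else norm a, norm a ^ 2, fun t x y => ?_,
    fun x i => ?_, fun x => ?_, fun i => ?_, pow_ne_zero _ ha⟩
  · funext i
    rcases fin3_cases k i with rfl | rfl | rfl <;>
      simp only [tm_zero, tm_one, tm_two, Pi.add_apply, Pi.smul_apply, mul_add, add_mul,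
        mul_smul_comm, smul_mul_assoc, id]
  · have h : ∀ k : Fin 3, k ≠ k + 2 ∧ k + 1 ≠ k + 2 := by decide
    rcases fin3_cases k i with rfl | rfl | rfl <;>
      simp only [Perm.one_apply, tm_zero, tm_one, tm_two, Oct.norm_mul, Oct.norm_star, id,
        if_neg (h _).1, if_neg (h _).2, if_true]
    · ring
    · ring
  · rw [← tau_shift _ k, ← tau_shift x k, tau, tau, zero_add, add_comm 1, add_comm 2, tm_zero,
      tm_one, tm_two, tr_moufang, id]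
  · split_ifs
    exacts [pow_ne_zero _ ha, ha]

/-- The components of `x` are multiples of the components of `y`. -/
def Ln (x y : V4 A B C) : Prop := ∀ i, ∃ c : F, x i = c • y i

theorem Ln.refl (x : V4 A B C) : Ln x x := fun _ => ⟨1, (one_smul _ _).symm⟩

theorem Ln.trans {x y z : V4 A B C} (h : Ln x y) (h' : Ln y z) : Ln x z := fun i => by
  obtain ⟨c, hc⟩ := h i
  obtain ⟨c', hc'⟩ := h' i
  exact ⟨c * c', by rw [hc, hc', smul_smul]⟩

theorem Ln.symm {x y : V4 A B C} (h : Ln x y) (hx : ∀ i, x i ≠ 0) : Ln y x := fun i => by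
  obtain ⟨c, hc⟩ := h i
  have h0 : c ≠ 0 := fun h0 => hx i (by rw [hc, h0, zero_smul])
  exact ⟨c⁻¹, by rw [hc, inv_smul_smul₀ h0]⟩

theorem Ln.be {x y : V4 A B C} (h : Ln x y) : Ln (be x) (be y) := fun i => by
  choose c hc using h
  exact ⟨_, by rw [show x = _ from funext hc, be_smul]⟩

theorem ln_Z4 {z : Perm (V4 A B C)} (hz : z ∈ Z4 A B C) (x : V4 A B C) : Ln (z x) x := by
  obtain ⟨l, hl⟩ := mem_Z4.1 hz
  exact fun i => ⟨_, hl x i⟩

/-- A unit of the composition. -/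
def Unit4 (u : V4 A B C) : Prop := (∀ i, norm (u i) ≠ 0) ∧ Ln (be u) u

theorem Unit4.ne {u : V4 A B C} (h : Unit4 u) (i : Fin 3) : u i ≠ 0 := fun h0 =>
  h.1 i (by rw [h0, Oct.norm_zero])

variable [CharZero F] {γ : Gl F} {π : Perm (Fin 3)} {μ : Fin 3 → F} {ν : F}
  {φ : V4 A B C ≃ V4 A' B' C'}

theorem Sim4.ln (h : Sim4 γ π μ ν φ) {x y : V4 A B C} (hxy : Ln x y) : Ln (φ x) (φ y) := by
  choose c hc using hxy
  rw [show x = _ from funext hc, h.scal]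
  exact fun i => ⟨_, rfl⟩

theorem Sim4.ln_be (h : Sim4 γ π μ ν φ) (x : V4 A B C) : Ln (be (φ x)) (φ (be x)) := fun i => by
  obtain ⟨i, rfl⟩ := π.surjective i
  exact ⟨(μ i)⁻¹ * ν, by rw [mul_smul, ← h.obe, inv_smul_smul₀ (h.ne i)]⟩

theorem Sim4.ln_be' (h : Sim4 γ π μ ν φ) (x : V4 A B C) : Ln (φ (be x)) (be (φ x)) := fun i => by
  obtain ⟨i, rfl⟩ := π.surjective i
  exact ⟨ν⁻¹ * μ i, by rw [mul_smul, h.obe, inv_smul_smul₀ h.ne']⟩

theorem Sim4.unit (h : Sim4 γ π μ ν φ) {u : V4 A B C} (hu : Unit4 u) : Unit4 (φ u) := by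
  refine ⟨fun i => ?_, (h.ln_be u).trans (h.ln hu.2)⟩
  obtain ⟨i, rfl⟩ := π.surjective i
  rw [h.nrm]
  exact mul_ne_zero (h.ne i) ((map_ne_zero γ).2 (hu.1 i))

theorem sim4_lin_mul {ψ ψ' : Perm (V4 A B C)} (h : ∃ μ ν, Sim4 id 1 μ ν ψ)
    (h' : ∃ μ ν, Sim4 id 1 μ ν ψ') : ∃ μ ν, Sim4 id 1 μ ν ⇑(ψ * ψ') := by
  obtain ⟨_, _, h⟩ := h
  obtain ⟨_, _, h'⟩ := h'
  exact ⟨_, _, ((sim4_one.2 h).comp (sim4_one.2 h')).cast (γ' := 1) (mul_one _) (mul_one _)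
    (fun _ => rfl) rfl⟩

theorem sim4_lin_symm {ψ : V4 A B C ≃ V4 A' B' C'} (h : ∃ μ ν, Sim4 id 1 μ ν ψ) :
    ∃ μ ν, Sim4 id 1 μ ν ψ.symm := by
  obtain ⟨_, _, h⟩ := h
  exact ⟨_, _, (sim4_one.2 h).symm.cast (γ' := 1) inv_one inv_one (fun _ => rfl) rfl⟩

theorem sim4_lin_trans {A'' B'' C'' : Fˣ} {ψ : V4 A B C ≃ V4 A' B' C'}
    {ψ' : V4 A' B' C' ≃ V4 A'' B'' C''} (h : ∃ μ ν, Sim4 id 1 μ ν ψ)
    (h' : ∃ μ ν, Sim4 id 1 μ ν ψ') : ∃ μ ν, Sim4 id 1 μ ν (ψ.trans ψ') := by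
  obtain ⟨_, _, h⟩ := h
  obtain ⟨_, _, h'⟩ := h'
  exact ⟨_, _, ((sim4_one.2 h').comp (sim4_one.2 h)).cast (γ' := 1) (mul_one _) (mul_one _)
    (fun _ => rfl) rfl⟩

omit [CharZero F] in
theorem tm_pure {u : V4 A B C} {s : F} (h1 : u 1 = s • 1) (h : bil a 1 = 0) :
    tm 2 a ha u 1 = (-(s * norm a)) • 1 := by
  have h2 : tm 2 a ha u 1 = _ := tm_two (k := 2) u
  rw [h2, show (2 + 2 : Fin 3) = 1 from rfl, h1, star_neg_of_pure h, mul_smul_comm, mul_one,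
    smul_mul_assoc, neg_mul_neg, mul_self_of_pure h, smul_smul, mul_neg]

omit [CharZero F] in
theorem Unit4.ln_one {v : V4 A B C} (hv : Unit4 v) {s t : F} (h1 : v 1 = s • 1)
    (h2 : v 2 = t • 1) : Ln v 1 := by
  intro i
  rcases fin3_cases 0 i with rfl | rfl | rfl
  · obtain ⟨c, hc⟩ := hv.2 0
    have k5 : c ≠ 0 := by
      rintro rfl
      have k4 := norm_be v 0
      rw [hc, zero_smul, Oct.norm_zero] at k4
      exact mul_ne_zero (hv.1 _) (hv.1 _) k4.symm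
    rw [be, zero_add, zero_add, h1, h2, smul_mul_smul_comm, mul_one, star_smul_oct, star_one] at hc
    exact ⟨c⁻¹ * (s * t), by rw [mul_smul, Pi.one_apply, hc, inv_smul_smul₀ k5]⟩
  · exact ⟨_, h1⟩
  · exact ⟨_, h2⟩

end tm

section unit

variable {F : Type} [Field F] [NumberField F] {A B C : Fˣ}

/-- **A unit is moved to the standard unit.** -/
theorem Unit4.exists_sim {u : V4 A B C} (hu : Unit4 u) :
    ∃ ψ : Perm (V4 A B C), (∃ μ ν, Sim4 id 1 μ ν ψ) ∧ Ln (ψ u) 1 := by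
  have h0 : ∀ {ψ : Perm (V4 A B C)}, (∃ μ ν, Sim4 id 1 μ ν ψ) → Unit4 (ψ u) :=
    fun ⟨_, _, h⟩ => (sim4_one.2 h).unit hu
  have hs : ∀ (v : V4 A B C) (s : F) (a : Oct A B C), v 1 = s • 1 → norm a ≠ 0 → bil a 1 = 0 →
      ∃ ψ : Perm (V4 A B C), (∃ μ ν, Sim4 id 1 μ ν ψ) ∧ (∃ t : F, ψ v 1 = t • 1) ∧
        ψ v 2 = a * v 2 := fun v s a h1 h2 h3 =>
    ⟨tm 2 a h2, sim4_tm, ⟨_, tm_pure h1 h3⟩, tm_zero v⟩
  obtain ⟨ψ₁, s1, k1⟩ : ∃ ψ : Perm (V4 A B C), (∃ μ ν, Sim4 id 1 μ ν ψ) ∧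
      ψ u 1 = norm (u 1) • 1 :=
    ⟨tm 1 (star (u 1)) (by rw [Oct.norm_star]; exact hu.1 1), sim4_tm, by
      rw [tm_zero, star_mul_self]⟩
  have hb : ∀ t : F, Fx ⊥ t := fun t γ hγ => by
    rw [Subgroup.mem_bot.1 hγ]
    rfl
  obtain ⟨a, -, h2, h3, h4⟩ := (oact_jO (A := A) (B := B) (C := C) (hb _) (hb _)
    (hb _)).exists_perp (fun _ => star (ψ₁ u 2)) fun _ γ hγ => by rw [Subgroup.mem_bot.1 hγ]; rfl
  have h5 : bil (a * ψ₁ u 2) 1 = 0 := by rw [bil_mul_left', one_mul, h4 0]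
  obtain ⟨ψ₂, s2, ⟨t, k2⟩, k3⟩ := hs _ _ a k1 h2 h3
  obtain ⟨ψ₃, s3, ⟨t', k4⟩, k5⟩ := hs _ _ _ k2
    (by rw [Oct.norm_mul]; exact mul_ne_zero h2 ((h0 s1).1 2)) h5
  rw [k3, mul_self_of_pure h5] at k5
  have s4 := sim4_lin_mul s3 (sim4_lin_mul s2 s1)
  exact ⟨_, s4, (h0 s4).ln_one k4 k5⟩

end unit

section au

variable {F : Type} [Field F] {A B C : Fˣ} {π π' : Perm (Fin 3)}

/-- The conjugation for the odd permutations. -/
def sg (π : Perm (Fin 3)) (u : Oct A B C) : Oct A B C := if Perm.sign π = 1 then u else star u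

theorem sg_sg (u : Oct A B C) : sg π (sg π u) = u := by
  rw [sg, sg]
  split_ifs
  exacts [rfl, star_star u]

theorem sg_mul (u : Oct A B C) : sg (π * π') u = sg π (sg π' u) := by
  rcases Int.units_eq_one_or (Perm.sign π) with h | h <;>
    rcases Int.units_eq_one_or (Perm.sign π') with h' | h' <;> simp [sg, h, h']

theorem sg_one : sg π (1 : Oct A B C) = 1 := by
  rw [sg]
  split_ifs
  exacts [rfl, star_one _]

theorem sg_add (u v : Oct A B C) : sg π (u + v) = sg π u + sg π v := by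
  rw [sg, sg, sg]
  split_ifs
  exacts [rfl, star_add _ _]

theorem sg_smul (t : F) (u : Oct A B C) : sg π (t • u) = t • sg π u := by
  rw [sg, sg]
  split_ifs
  exacts [rfl, star_smul_oct _ _]

theorem norm_sg (u : Oct A B C) : norm (sg π u) = norm u := by
  rw [sg]
  split_ifs
  exacts [rfl, Oct.norm_star _]

theorem sg_id (u : Oct A B C) : sg 1 u = u := if_pos (map_one _)

variable [CharZero F] {γ δ : Gl F}

/-- The map `θ` is, up to scalars, the standard map of the semilinear automorphism `α`. -/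
structure Au (γ : Gl F) (π : Perm (Fin 3)) (θ : V4 A B C → V4 A B C) (α : Oct A B C → Oct A B C) :
    Prop where
  semi : Semi γ α
  omul : ∀ x y, α (x * y) = α x * α y
  nrm : ∀ x, norm (α x) = γ (norm x)
  one : α 1 = 1
  eq : ∃ l : Fin 3 → F, (∀ i, l i ≠ 0) ∧ ∀ x i, θ x (π i) = l (π i) • sg π (α (x i))

variable {θ θ' : V4 A B C → V4 A B C} {α α' : Oct A B C → Oct A B C}

theorem Au.unique (h : Au γ π θ α) (h' : Au δ π θ α') : α = α' := by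
  obtain ⟨l, h1, h2⟩ := h.eq
  obtain ⟨l', -, h3⟩ := h'.eq
  have h4 := (h2 1 0).symm.trans (h3 1 0)
  rw [Pi.one_apply, h.one, h'.one, sg_one] at h4
  funext x
  have h5 := (h2 (fun _ => x) 0).symm.trans (h3 (fun _ => x) 0)
  rw [← smul_one_inj h4] at h5
  rw [← sg_sg (π := π) (α x), smul_right_injective _ (h1 _) h5, sg_sg]

theorem Au.ostar (h : Au γ π θ α) (x : Oct A B C) : α (star x) = star (α x) := by
  have h1 : bil (α x) 1 = γ (bil x 1) := by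
    conv_lhs => rw [← h.one]
    rw [bil, bil, ← h.semi.add, h.nrm, h.nrm, h.nrm, map_sub, map_sub]
  rw [star_eq, star_eq, h.semi.sub, h.semi.smul, h1, h.one]

theorem Au.map_sg (h : Au γ π θ α) (x : Oct A B C) : α (sg π' x) = sg π' (α x) := by
  rw [sg, sg]
  split_ifs
  exacts [rfl, h.ostar x]

theorem Au.comp (h : Au γ π θ α) (h' : Au δ π' θ' α') :
    Au (γ * δ) (π * π') (θ ∘ θ') (α ∘ α') where
  semi := h.semi.comp h'.semi
  omul x y := by simp only [Function.comp_apply, h.omul, h'.omul]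
  nrm x := by rw [Function.comp_apply, h.nrm, h'.nrm]; rfl
  one := by rw [Function.comp_apply, h'.one, h.one]
  eq := by
    obtain ⟨l, h1, h2⟩ := h.eq
    obtain ⟨l', h3, h4⟩ := h'.eq
    refine ⟨fun i => l i * γ (l' (π⁻¹ i)), fun i => mul_ne_zero (h1 _) ((map_ne_zero γ).2 (h3 _)),
      fun x i => ?_⟩
    rw [Function.comp_apply, Perm.mul_apply, h2, h4, h.semi.smul, sg_smul, smul_smul, h.map_sg,
      sg_mul, Function.comp_apply]
    beta_reduce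
    rw [show π⁻¹ (π (π' i)) = π' i from π.symm_apply_apply _]

theorem Au.zmul (h : Au γ π θ α) {z : Perm (V4 A B C)} (hz : z ∈ Z4 A B C) :
    Au γ π (z ∘ θ) α := by
  obtain ⟨l, h1, h2⟩ := h.eq
  obtain ⟨m, hm⟩ := mem_Z4.1 hz
  exact ⟨h.semi, h.omul, h.nrm, h.one, fun i => m i * l i,
    fun i => mul_ne_zero (ne_of_scal hm i) (h1 i), fun x i => by
      rw [Function.comp_apply, hm, h2, smul_smul]⟩

theorem au_id : Au 1 1 (id : V4 A B C → V4 A B C) id :=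
  ⟨fun _ _ _ => rfl, fun _ _ => rfl, fun _ => rfl, rfl, 1, fun _ => one_ne_zero, fun x i => by
    rw [sg_id, Pi.one_apply, one_smul]; rfl⟩

theorem au_st4 (h : Par γ A B C A B C) : Au γ π (st4 γ π : V4 A B C → V4 A B C) (jO γ) :=
  ⟨fun t x y => by rw [jO_add, jO_smul], jO_mul h, norm_jO h, jO_one γ, 1, fun _ => one_ne_zero,
    fun x i => by rw [st4_apply, Pi.one_apply, one_smul]; rfl⟩

/-- Two maps with the same automorphism differ by scalars. -/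
theorem Au.exists_Z4 (h : Au γ π θ α) (h' : Au δ π θ' α) :
    ∃ z ∈ Z4 A B C, ∀ x, θ' x = z (θ x) := by
  obtain ⟨l, h1, h2⟩ := h.eq
  obtain ⟨l', h3, h4⟩ := h'.eq
  refine ⟨_, zs_mem (fun i => l' i / l i) fun i => div_ne_zero (h3 i) (h1 i), fun x => ?_⟩
  funext i
  obtain ⟨i, rfl⟩ := π.surjective i
  rw [zs_apply, h2, h4, smul_smul, div_mul_cancel₀ _ (h1 _)]

/-- **A similitude which fixes the lines of the unit is an automorphism.** -/
theorem Sim4.exists_au {μ : Fin 3 → F} {ν : F} {θ : Perm (V4 A B C)} (h : Sim4 γ π μ ν θ)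
    (hu : Ln (θ 1) 1) : ∃ α, Au γ π θ α := by
  choose l hl using hu
  have h0 : ∀ i, l i ≠ 0 := fun i h0 => by
    obtain ⟨i, rfl⟩ := π.surjective i
    exact h.apply_ne (x := 1) oct_one_ne (by rw [hl, h0, zero_smul])
  have hz := sim4_scal (z := zs (A := A) (B := B) (C := C) (fun i => (l i)⁻¹)
    fun i => inv_ne_zero (h0 i)) fun _ _ => rfl
  obtain ⟨φ, μ', ν', k1, k2, k3⟩ : ∃ (φ : Perm (V4 A B C)) (μ' : Fin 3 → F) (ν' : F),
      Sim4 γ π μ' ν' φ ∧ φ 1 = 1 ∧ ∀ x i, θ x i = l i • φ x i :=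
    ⟨zs _ (fun i => inv_ne_zero (h0 i)) * θ, _, _, ((sim4_one.2 hz).comp h).cast (one_mul _) (one_mul _) (fun _ => rfl) rfl,
      funext fun i => by rw [Perm.mul_apply, zs_apply, hl, inv_smul_smul₀ (h0 i)],
      fun x i => by rw [Perm.mul_apply, zs_apply, smul_inv_smul₀ (h0 i)]⟩
  have k4 : ∀ i, μ' i = 1 := fun i => by
    have k5 := k1.nrm 1 i
    rwa [k2, Pi.one_apply, Pi.one_apply, Oct.norm_one, map_one, mul_one, eq_comm] at k5
  have k5 : ν' = 1 := by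
    have k6 := k1.tri 1
    rw [k2, show tau (1 : V4 A B C) = 2 from tau_one, map_ofNat] at k6
    linear_combination (-1 / 2 : F) * k6
  have k6 : ∀ i, cp φ π i 1 = 1 := fun i => by
    rw [← Pi.one_apply (M := fun _ => Oct A B C) i, ← k1.apply, k2]
    rfl
  have k7 : ∀ i x, cp φ π i (star x) = star (cp φ π i x) := fun i x => by
    have k8 := k1.cp_bil i x 1
    rw [k6, k4, one_mul] at k8
    rw [star_eq, star_eq, (k1.cp_semi i).sub, (k1.cp_semi i).smul, k6, k8]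
  have k8 : ∀ (x : V4 A B C) i, φ x (π i + 1) * φ x (π i + 2) =
      cp φ π i (x (i + 1) * x (i + 2)) := fun x i => by
    have k9 := k1.obe x i
    rw [k4, k5, one_smul, one_smul, k1.apply, be, be, k7] at k9
    exact star_injective k9
  have k9 : ∀ (i : Fin 3) (y w : Oct A B C), ∃ x : V4 A B C, x (i + 1) = y ∧ x (i + 2) = w :=
    fun i y w => ⟨fun j => if j = i + 1 then y else w, if_pos rfl, if_neg (by revert i; decide)⟩
  have k10 : ∀ i y w, cp φ π i (y * w) = if Perm.sign π = 1 then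
      cp φ π (i + 1) y * cp φ π (i + 2) w else cp φ π (i + 2) w * cp φ π (i + 1) y := by
    intro i y w
    obtain ⟨x, rfl, rfl⟩ := k9 i y w
    rw [← k8, ← k1.apply, ← k1.apply]
    split_ifs with hs
    · obtain ⟨s, hs⟩ := even_perm π hs
      rw [hs, hs, hs, add_right_comm i s, add_right_comm i s]
    · obtain ⟨s, hs⟩ := odd_perm π hs
      have k11 : ∀ s i : Fin 3, s - i + 1 = s - (i + 2) ∧ s - i + 2 = s - (i + 1) := by decide
      rw [hs, hs, hs, (k11 s i).1, (k11 s i).2]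
  have k11 : ∀ i y, cp φ π (i + 1) y = cp φ π i y := fun i y => by
    have k12 := k10 i y 1
    rw [mul_one, k6, mul_one, one_mul, ite_self] at k12
    exact k12.symm
  have k12 : ∀ i y, cp φ π i y = cp φ π 0 y := fun i y => by
    fin_cases i
    exacts [rfl, k11 0 y, (k11 1 y).trans (k11 0 y)]
  refine ⟨fun x => sg π (cp φ π 0 x), fun t x y => ?_, fun x y => ?_, fun x => ?_, ?_, l, h0,
    fun x i => ?_⟩
  · rw [k1.cp_semi, sg_add, sg_smul]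
  · rw [k10, k12, k12 (0 + 2), sg, sg, sg]
    split_ifs
    exacts [rfl, star_mul _ _]
  · rw [norm_sg, k1.cp_norm, k4, one_mul]
  · rw [k6, sg_one]
  · rw [sg_sg, k3, k1.apply, k12]

end au

section fam

variable {F : Type} [Field F] [NumberField F] {A B C : Fˣ} {Γ : Subgroup (Gl F)}
  {p : Gl F → Perm (Fin 3)}

/-- A family of maps which fix the lines of the unit gives an action by automorphisms. -/
theorem exists_oact (hp : ∀ γ ∈ Γ, ∀ δ ∈ Γ, p (γ * δ) = p γ * p δ) (hp1 : p 1 = 1)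
    (θ : Gl F → V4 A B C → V4 A B C) (h1 : ∀ γ ∈ Γ, ∃ α, Au γ (p γ) (θ γ) α)
    (h2 : ∀ γ ∈ Γ, ∀ δ ∈ Γ, ∃ z ∈ Z4 A B C, ∀ x, θ (γ * δ) x = z (θ γ (θ δ x)))
    (h3 : ∃ z ∈ Z4 A B C, ∀ x, θ 1 x = z x) :
    ∃ a, OAct Γ a ∧ ∀ γ ∈ Γ, Au γ (p γ) (θ γ) (a γ) := by
  choose! a ha using h1
  refine ⟨a, ⟨⟨fun γ hγ => (ha γ hγ).semi, fun γ hγ δ hδ x => ?_, fun x => ?_⟩,
    fun γ hγ => (ha γ hγ).omul, fun γ hγ => (ha γ hγ).nrm⟩, ha⟩
  · obtain ⟨z, hz, k1⟩ := h2 γ hγ δ hδ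
    have k2 := ha _ (Γ.mul_mem hγ hδ)
    rw [hp γ hγ δ hδ, show θ (γ * δ) = z ∘ θ γ ∘ θ δ from funext k1] at k2
    exact congrFun (k2.unique (((ha γ hγ).comp (ha δ hδ)).zmul hz)) x
  · obtain ⟨z, hz, k1⟩ := h3
    have k2 := ha _ Γ.one_mem
    rw [hp1, show θ 1 = z ∘ id from funext k1] at k2
    exact congrFun (k2.unique (au_id.zmul hz)) x

/-- The standard maps in a fixed frame. -/
theorem Au.frame {a : Gl F → Oct A B C → Oct A B C} (ha : OAct Γ a) {i j l : Oct A B C}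
    {α β κ : Fˣ} (hi : Fix Γ a i) (hj : Fix Γ a j) (hl : Fix Γ a l) (ht : Triple i j l α β κ)
    {ψ : V4 α β κ ≃ V4 A B C} (hψ : ∀ x m, ψ x m = Oct.emb i j l (x m)) {γ : Gl F} (hγ : γ ∈ Γ)
    {π : Perm (Fin 3)} {θ : V4 A B C → V4 A B C} (h : Au γ π θ (a γ)) :
    ∃ z ∈ Z4 α β κ, ∀ x, θ (ψ x) = ψ (z (st4 γ π x)) := by
  obtain ⟨c, h1, h2⟩ := h.eq
  refine ⟨_, zs_mem c h1, fun x => funext fun m => ?_⟩
  obtain ⟨m, rfl⟩ := π.surjective m
  rw [h2, hψ, hψ, zs_apply, emb_smul, st4_apply, ha.map_emb hi hj hl hγ, sg, so4]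
  split_ifs
  exacts [rfl, by rw [ht.emb_star]]

variable {Φ : Subgroup (Perm (V4 A B C))}

/-- **A unit whose lines are permuted**: the datum comes from an octonion algebra. -/
theorem Dat4.of_unit (h : Dat4 Γ Φ) {u : V4 A B C} (hu : Unit4 u) (hl : ∀ φ ∈ Φ, Ln (φ u) u) :
    ∃ a b c : Fˣ, Fx Γ (a : F) ∧ Fx Γ (b : F) ∧ Fx Γ (c : F) ∧
      ∃ ψ : V4 a b c ≃ V4 A B C, (∃ μ ν, Sim4 id 1 μ ν ψ) ∧ Ln (ψ 1) u ∧
        ∀ φ ∈ Φ, ∀ γ ∈ Γ, ∀ π μ ν, Sim4 γ π μ ν φ →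
          ∃ z ∈ Z4 a b c, ∀ x, φ (ψ x) = ψ (z (st4 γ π x)) := by
  obtain ⟨ψ, hψ, h1⟩ := hu.exists_sim
  obtain ⟨p, hp⟩ := h.exists_pm
  obtain ⟨_, _, s1⟩ := hψ
  obtain ⟨_, _, s2⟩ := sim4_lin_symm ⟨_, _, s1⟩
  have h2 : Ln 1 (ψ u) := h1.symm ((sim4_one.2 s1).unit hu).ne
  have h3 : ∀ φ ∈ Φ, ∀ γ : Gl F, Semi γ φ → ∃ α, Au γ (p γ) (ψ.permCongr φ) α := by
    intro φ hφ γ hγ
    obtain ⟨_, _, k1⟩ := hp.sim φ hφ γ hγ
    have k2 : Sim4 γ (p γ) _ _ (ψ.permCongr φ) :=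
      (((sim4_one.2 s1).comp k1).comp (sim4_one.2 s2)).cast (by simp) (by simp) (fun _ => rfl) rfl
    refine k2.exists_au ((k2.ln h2).trans ?_)
    rw [permCongr_apply, ψ.symm_apply_apply]
    exact ((sim4_one.2 s1).ln (hl φ hφ)).trans h1
  choose! φ k1 k2 using h.ov.onto
  have h4 : ∀ φ' ∈ Φ, ∀ γ ∈ Γ, Semi γ φ' →
      ∃ z ∈ Z4 A B C, ∀ x, ψ.permCongr φ' x = z (ψ.permCongr (φ γ) x) := by
    intro φ' k3 γ k4 k5
    obtain ⟨z, hz, rfl⟩ := h.exists_Z4 (k1 γ k4) k3 (k2 γ k4) k5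
    exact ⟨_, (sim4_one.2 s1).conj_Z4 hz, fun x => by simp⟩
  obtain ⟨a, ha, h5⟩ := exists_oact hp.mul hp.one (fun γ => ψ.permCongr (φ γ))
    (fun γ hγ => h3 _ (k1 γ hγ) γ (k2 γ hγ)) (fun γ hγ δ hδ => by
      obtain ⟨z, hz, k3⟩ := h4 _ (Φ.mul_mem (k1 γ hγ) (k1 δ hδ)) _ (Γ.mul_mem hγ hδ)
        ((k2 γ hγ).mul (k2 δ hδ))
      refine ⟨z⁻¹, (Z4 A B C).inv_mem hz, fun x => ?_⟩
      rw [Perm.eq_inv_iff_eq, ← k3]
      simp) (by
      obtain ⟨z, hz, k3⟩ := h4 1 Φ.one_mem 1 Γ.one_mem semi_id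
      refine ⟨z⁻¹, (Z4 A B C).inv_mem hz, fun x => ?_⟩
      rw [Perm.eq_inv_iff_eq, ← k3]
      simp)
  obtain ⟨α, β, κ, i, j, l, f1, f2, f3, f4, f5, f6, f7⟩ := ha.exists_frame
  obtain ⟨E, s3, hE⟩ := exists_emb4 f7
  refine ⟨α, β, κ, f1, f2, f3, E.trans ψ.symm, sim4_lin_trans ⟨_, _, s3⟩ ⟨_, _, s2⟩, ?_,
    fun φ' k3 γ k4 π μ ν k5 => ?_⟩
  · have k3 : E 1 = 1 := funext fun m => (hE 1 m).trans emb_one
    rw [Equiv.trans_apply, k3, ← ψ.symm_apply_apply u]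
    exact (sim4_one.2 s2).ln h2
  · obtain ⟨z, hz, k6⟩ := h4 φ' k3 γ k4 k5.semi
    have k7 := (h5 γ k4).zmul hz
    rw [← show ⇑(ψ.permCongr φ') = z ∘ ψ.permCongr (φ γ) from funext k6, ← hp.eq k3 k5] at k7
    obtain ⟨z', hz', k8⟩ := k7.frame ha f4 f5 f6 f7 hE k4
    refine ⟨z', hz', fun x => ?_⟩
    rw [Equiv.trans_apply, Equiv.trans_apply, ← k8, permCongr_apply, ψ.symm_apply_apply]

theorem line4_iff (h : Dat4 Γ Φ) : Line4 Φ ↔ ∃ x, (∀ i, x i ≠ 0) ∧ ∀ φ ∈ Φ, Ln (φ x) x := by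
  refine exists_congr fun x => and_congr_right fun _ => forall₂_congr fun φ hφ =>
    ⟨fun h1 i => ?_, fun h1 g π μ ν h2 i => ?_⟩
  · obtain ⟨γ, -, π, μ, ν, h2⟩ := h.sim φ hφ
    obtain ⟨i, rfl⟩ := π.surjective i
    obtain ⟨c, hc⟩ := h1 γ π μ ν h2 i
    exact ⟨c, by rw [h2.apply, cp, hc, Pi.smul_apply, Pi.single_eq_same]⟩
  · obtain ⟨γ, rfl⟩ := exists_gl h2.semi
    obtain ⟨c, hc⟩ := h1 (π i)
    exact ⟨c, by rw [h2.single, ← h2.apply, hc, Pi.single_smul']⟩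

end fam

end Vale.Agent.P011N.Cl
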